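import Vale.Agent.P284.H573.G.Fin
import Vale.Agent.P284.H451.G.Rig

/-!
# P284 (helper573), target G: `DKGStmt`, unconditional
-/

namespace Vale.Agent.P284.H573.GG

/-- **G2**, unconditional -/
theorem dkgStmt : Vale.Agent.P284.H478.G.DKGStmt := dkG Vale.Agent.P284.H451.G.rigStmt

end Vale.Agent.P284.H573.GG
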