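import Vale.Agent.P284.H573.G.Near

/-!
# P284 (helper573), target G: elements which preserve all the lines of `v` fix `Θ`
-/

open scoped Manifold ContDiff Topology InnerProductSpace ComplexConjugate
open Filter Set Metric

noncomputable section

set_option linter.unusedSectionVars false
set_option linter.style.haveILetI false

namespace Vale.Agent.P284.H573.GG

open Vale.Agent.P272.K Vale.Agent.P284.H894.G Vale.Agent.P284.H894.V Vale.Agent.P284.H894.W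
  Vale.Agent.P284.H213.Grp Vale.Agent.P284.H619 Vale.Agent.P284.H10 Vale.Agent.P284.H573
  Vale.Agent.P284.H625 Vale.Agent.P284.H378 Vale.Agent.P284.H212 Vale.Agent.P284.H395
  Vale.Agent.P284.H885.DK

section
variable {n q r k s m d : ℕ} {X E Γ W H : Type} [TopologicalSpace X] [ChartedSpace (Cm n) X]
  [TopologicalSpace E] [Group Γ] [MulAction Γ E]
  [NormedAddCommGroup W] [InnerProductSpace ℂ W] [CompleteSpace W] [NormedAddCommGroup H]
  [InnerProductSpace ℂ H] [CompleteSpace H] {p : E → X} {F : E → Cm q} {t : Cm q}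
  {w : Chart n X → Cm n → Matrix (Fin n) (Fin n) ℂ} {B : ℝ}
  {v : E → Chart n X → (Fin (q + r) → Cm n) → H}
  {U : Γ → (H →ₗᵢ[ℂ] H)} {π : Γ →* (W ≃ₗᵢ[ℂ] W)} {Θ : E → Chart n X → (Cm n →L[ℂ] W)}
  {N : Cm k →L[ℂ] Cm q} {z : E} {e : Chart n X} {b : Cm n → Cm (q + r)}
  {F0 : Cm (q + r) → W} {β : Cm (q + r) → Cm s} {γ : Cm s → H} {τ : Cm s → Cm q} {u : E → W}
  {𝒢 : Set E}

theorem line_fix [IsManifold 𝓘(ℂ, Cm n) ω X] (hp : IsCoveringMap p) (hF : HolB p w F B)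
    (h : HCh d n p F t) (hpot : VPot p F t W Θ u) (hL : LeafE s p F m v U π Θ N 𝒢)
    {c : Γ → Cm q} {g : Γ} (hcg : c g = 0)
    (hline : ∀ y ∈ 𝒢, ∀ e, At e (p y) → ∀ ξ, ∃ a : ℂ, U g (v y e ξ) = a • v y e ξ)
    (x : F ⁻¹' {t}) (hx : (x : E) ∈ 𝒢) :
    ∀ᶠ y in 𝓝 x, π g (Fp h hpot x y) = Fp h hpot x y := by
  letI := fibCS h
  obtain ⟨e, b, F0, β, γ, τ, hLC⟩ := hL.chart x hx
  have hFz : F (x : E) = tq (b (e (p (x : E)))) := hLC.t_eq.self_of_nhds
  set x₀ := b (e (p (x : E))) with hx₀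
  have htx : tq x₀ = t := by rw [← hFz]; exact x.2
  obtain ⟨P, hP⟩ : ∃ P : Cm q →L[ℂ] Cm k, ∀ x, P (N x) = x := by
    obtain ⟨g, hg⟩ := LinearMap.exists_leftInverse_of_injective (N : Cm k →ₗ[ℂ] Cm q)
      (LinearMap.ker_eq_bot.2 hL.Ninj)
    exact ⟨LinearMap.toContinuousLinearMap g, fun x => LinearMap.congr_fun hg x⟩
  obtain ⟨I, R, KG, hS, hψ⟩ := exists_psi' hL.dim hP hLC.βan hLC.trans hLC.τan hLC.leaf (c := c)
    hLC.F0an hLC.sheet
  have hon := lc_onL hp hL.form hLC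
  -- `γ x'` is preserved up to a factor
  have h1 : {y : E | y ∈ 𝒢 ∧ H395.NZ p v y ∧ OnL p v y (γ (β (b (e (p y)))))} ∈ 𝓝 (x : E) := by
    filter_upwards [hL.good.isOpen.mem_nhds hx, hon] with y a1 a2
    exact ⟨a1, a2.2.2.1, a2.2.2.2⟩
  obtain ⟨ρ, hρ, hρb⟩ := Metric.mem_nhds_iff.1 (hon.self_of_nhds.2.1 (image_mem_map h1))
  have hNI : NI U c N γ τ (β x₀) ρ g id := by
    refine ⟨differentiableOn_id, fun x' hx' => ⟨?_, ?_⟩⟩
    · obtain ⟨y, ⟨hy1, hy2, hy3⟩, rfl⟩ := hρb hx'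
      obtain ⟨e', ξ, a, he', -, h2⟩ := hy3.exists_val hy2
      obtain ⟨a', ha'⟩ := hline y hy1 e' he' ξ
      refine ⟨a', ?_⟩
      show U g (γ (β (b (e (p y))))) = a' • γ (β (b (e (p y))))
      rw [h2, map_smul, ha', smul_comm]
    · show τ x' - τ x' - c g ∈ _
      rw [hcg, sub_self, sub_self]
      exact Submodule.zero_mem _
  obtain ⟨ρ', hρ', hin, δ, hδ, hmain⟩ := hψ ρ hρ
  obtain ⟨-, C, hC⟩ := hmain g id hcg hNI (fun x' _ => by simpa using hδ)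
  obtain ⟨hpot', -⟩ := slice_fib hp hF h hpot x hLC
  have hbp : Tendsto (fun y' : E => b (e (p y'))) (𝓝 (x : E)) (𝓝 x₀) :=
    hLC.ban.continuousAt.tendsto.comp (map_ep hp hLC.mem).le
  have hev : ∀ᶠ y : F ⁻¹' {t} in 𝓝 x, (fun y : E => b (e (p y)) ∈ ball x₀ ρ' ∧
      F y = tq (b (e (p y)))) y :=
    ev_fib.2 (((hbp.eventually (ball_mem_nhds _ hρ')).and hLC.t_eq).mono fun y hy _ => hy)
  have key : ∀ x' ∈ ball x₀ ρ', tq x' = t → π g (F0 x') + C = F0 x' := by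
    intro x' hx' ht'
    have h2 := hC x' hx' (by rw [ht', htx])
    have h3 := (hin x' hx').2.2
    simp only [id] at h2
    rwa [h3] at h2
  filter_upwards [hpot', hev] with y h2 h3
  have hty : tq (b (e (p (y : E)))) = t := by rw [← h3.2]; exact y.2
  rw [h2, eq_ins_of_tq hty, eq_ins_of_tq htx, map_sub]
  have e1 := key _ h3.1 hty
  have e2 := key x₀ (mem_ball_self hρ') htx
  have e3 : π g (F0 (b (e (p (y : E))))) = F0 (b (e (p (y : E)))) - C := by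
    conv_rhs => rw [← e1]
    abel
  have e4 : π g (F0 x₀) = F0 x₀ - C := by
    conv_rhs => rw [← e2]
    abel
  rw [e3, e4]
  abel

end

end Vale.Agent.P284.H573.GG
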