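import Vale.Agent.P284.H573.G.Zero
import Vale.Agent.P284.H573.G.Line
import Vale.Agent.P284.H221.GFS
import Vale.Agent.P284.H378.LF

/-!
# P284 (helper573), target G: `dkG : RigStmt → DKGStmt`
-/

open scoped Manifold ContDiff Topology InnerProductSpace ComplexConjugate
open Filter Set Metric

noncomputable section

set_option linter.unusedSectionVars false
set_option linter.style.haveILetI false

namespace Vale.Agent.P284.H573.GG

open Vale.Agent.P272.K Vale.Agent.P284.H894.G Vale.Agent.P284.H894.V Vale.Agent.P284.H894.W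
  Vale.Agent.P284.H213.Grp Vale.Agent.P284.H619 Vale.Agent.P284.H10 Vale.Agent.P284.H573
  Vale.Agent.P284.H625 Vale.Agent.P284.H378 Vale.Agent.P284.H212 Vale.Agent.P284.H395
  Vale.Agent.P284.H885.DK Vale.Agent.P284.H478.G Vale.Agent.P284.H451.G

/-- finite index in a subgroup -/
theorem fi_sub {Γ : Type} [Group Γ] {Q : Γ → Prop} {K K' : Subgroup Γ}
    (hfi : (K'.subgroupOf K).FiniteIndex)
    (h : ∃ S : Set Γ, S.Finite ∧ ∀ g, Q g → ∃ f ∈ S, f⁻¹ * g ∈ K) :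
    ∃ S : Set Γ, S.Finite ∧ ∀ g, Q g → ∃ f ∈ S, f⁻¹ * g ∈ K' := by
  obtain ⟨S, hS, h⟩ := h
  have : Finite (K ⧸ K'.subgroupOf K) := Subgroup.finite_quotient_of_finiteIndex
  refine ⟨image2 (fun f (a : K ⧸ K'.subgroupOf K) => f * ((Quotient.out a : K) : Γ)) S univ,
    hS.image2 _ finite_univ, fun g hg => ?_⟩
  obtain ⟨f, hf, hfg⟩ := h g hg
  set κ : K := ⟨f⁻¹ * g, hfg⟩ with hκ
  refine ⟨_, ⟨f, hf, (κ : K ⧸ K'.subgroupOf K), mem_univ _, rfl⟩, ?_⟩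
  have h1 : (Quotient.out (κ : K ⧸ K'.subgroupOf K))⁻¹ * κ ∈ K'.subgroupOf K :=
    QuotientGroup.eq.1 (Quotient.out_eq _)
  rw [Subgroup.mem_subgroupOf] at h1
  have h2 : ((Quotient.out (κ : K ⧸ K'.subgroupOf K))⁻¹ * κ : K) =
      ((f * ((Quotient.out (κ : K ⧸ K'.subgroupOf K) : K) : Γ))⁻¹ * g : Γ) := by
    rw [Subgroup.coe_mul, Subgroup.coe_inv, mul_inv_rev, mul_assoc]
  rwa [h2] at h1

/-- a subgroup with finitely many translates covering `K` has finite index -/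
theorem fi_of_fin {Γ : Type} [Group Γ] {K K' : Subgroup Γ}
    (h : ∃ A : Set Γ, A.Finite ∧ ∀ g ∈ K, ∃ f ∈ A, f⁻¹ * g ∈ K') :
    (K'.subgroupOf K).FiniteIndex := by
  obtain ⟨A, hA, h⟩ := h
  choose! f hf using h
  have : Finite A := hA
  have : Finite (K ⧸ K'.subgroupOf K) := by
    refine Finite.of_injective (β := A) (fun q => ⟨f (q.out : K), (hf _ (q.out : K).2).1⟩) ?_
    intro a b hab
    have h0 : f (a.out : K) = f (b.out : K) := congrArg Subtype.val hab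
    have h1 := (hf _ (a.out : K).2).2
    have h2 := (hf _ (b.out : K).2).2
    rw [← h0] at h2
    have h3 := K'.mul_mem (K'.inv_mem h1) h2
    rw [mul_inv_rev, inv_inv, mul_assoc, mul_inv_cancel_left] at h3
    rw [← Quotient.out_eq a, ← Quotient.out_eq b]
    exact QuotientGroup.eq.2 (by rw [Subgroup.mem_subgroupOf]; simpa using h3)
  exact Subgroup.finiteIndex_of_finite_quotient

/-- **G2** -/
theorem dkG (hRig : RigStmt) : DKGStmt := by
  intro n q r k s m X _ _ _ _ _ _ w hw E Γ _ _ _ _ p hp F c K hF hFe hK hfr hG hreg W H _ _ _ _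
    _ _ π Θ M₀ hM₀ hTh v U N 𝒢 hL g hcg hNear
  obtain ⟨B, hB⟩ := hF
  obtain ⟨T, hT1, hT2, hT3⟩ := hG
  have hTm : IsMeagre T := IsNowhereDense.isMeagre (by
    rw [IsNowhereDense, hT1.closure_eq, hT2])
  obtain ⟨Mg, hMg, hgf⟩ := H221.gfStmt n q X E Γ p hp w F c ⟨B, hB⟩ hFe hK.lat.disc 𝒢 hL.good hL.inv
  have hbad : IsMeagre (T ∪ M₀ ∪ Mg) := (hTm.union hM₀).union hMg
  have hK0 : ∀ k ∈ K, ∀ y, F (k • y) = F y := fun k hk y => by
    rw [hFe, hK.sub k hk, add_zero]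
  haveI : T2Space E := H35.S4.t2_of_cov hp.cov
  -- the data on a generic fibre
  have hgen : ∀ t ∉ T ∪ M₀ ∪ Mg, (∃ y, F y = t) → IsConnected (F ⁻¹' {t}) ∧
      (∀ y, F y = t → Reg (n := n) p F y) ∧ (∃ d, n = q + d) ∧
      (∃ u, VPot p F t W Θ u ∧ VEqui p F t K π Θ u) ∧
      ∀ (y : E) (e : Chart n X), F y = t → At e (p y) → ∃ h : Cm n → ℂ,
        AnalyticAt ℂ h (e (p y)) ∧ (∃ᶠ y' in 𝓝 y, F y' = t ∧ h (e (p y')) ≠ 0) ∧
        ∀ᶠ y' in 𝓝 y, h (e (p y')) ≠ 0 → y' ∈ 𝒢 := by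
    rintro t ht ⟨y₀, hy₀⟩
    have htT : t ∉ T := fun h' => ht (Or.inl (Or.inl h'))
    have htM : t ∉ M₀ := fun h' => ht (Or.inl (Or.inr h'))
    have htg : t ∉ Mg := fun h' => ht (Or.inr h')
    obtain ⟨hconn, hregt⟩ := hT3 t htT
    refine ⟨hconn, hregt, ?_, hTh.pot t htM, hgf t htg hregt⟩
    have he : At (chartAt (Cm n) (p y₀)) (p y₀) := ⟨chart_mem_atlas _ _, mem_chart_source _ _⟩
    obtain ⟨f, h1, h2⟩ := H221.holB_an hB y₀ he
    exact Nat.exists_eq_add_of_le (N_le_n (hregt y₀ hy₀ _ f he h2))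
  refine ⟨T ∪ M₀ ∪ Mg, hbad, ?_⟩
  rcases hRig n q r k s m X E Γ p hp F c K hFe hK.normal hK.sub hfr W H π Θ v U N 𝒢 hL g hNear with
    hA | ⟨𝒰, ε, K', h𝒰, hε0, hεt, hK'K, -, hAf, hR⟩
  · -- the lines are preserved
    intro t ht hty
    obtain ⟨hconn, hregt, ⟨d, hd⟩, ⟨u, hpot, hequi⟩, hth⟩ := hgen t ht hty
    have h : HCh d n p F t := hch_of hd hp.cov hB hregt
    letI := fibCS h
    haveI : IsManifold 𝓘(ℂ, Cm d) ω (F ⁻¹' {t}) := fib_manifold h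
    haveI : ConnectedSpace (F ⁻¹' {t}) := isConnected_iff_connectedSpace.1 hconn
    have hP0 := prim_Fp h hpot
    have hP : H573.DK.Prim d (Fp h hpot) :=
      ⟨fun x => H573.DK.hol_of_anM (hP0.hol x).self_of_nhds, hP0.self, hP0.add⟩
    -- a good point on the fibre
    obtain ⟨x, hx⟩ : ∃ x : F ⁻¹' {t}, (x : E) ∈ 𝒢 := by
      obtain ⟨y, hy⟩ := hty
      have he : At (chartAt (Cm n) (p y)) (p y) := ⟨chart_mem_atlas _ _, mem_chart_source _ _⟩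
      obtain ⟨h', -, h2, h3⟩ := hth y _ hy he
      obtain ⟨y', ⟨h4, h5⟩, h6⟩ := (h2.and_eventually h3).exists
      exact ⟨⟨y', h4⟩, h6 h5⟩
    filter_upwards [hA] with j hj
    have h1 := line_fix hp.cov hB h hpot hL (hcg j) hj x hx
    have h2 := H573.DK.fix_all hP (π (g j)).toLinearIsometry (x₀ := x) h1
    intro y e hy he ξ hξ
    exact fix_of_fib hp.cov hB h hpot (π (g j)).toLinearIsometry h2 y e hy he ξ hξ
  · -- the second alternative is impossible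
    exfalso
    have hfi : (K'.subgroupOf K).FiniteIndex := fi_of_fin hAf
    have hfund : ∀ t : Cm q, ∃ C : Set E, IsCompact C ∧ ∀ y, F y = t → ∃ k ∈ K', k • y ∈ C := by
      intro t
      obtain ⟨C, h1, h2⟩ := H221.exists_fund_K hp ((H885.Ker.holE_of hB).continuous hp.cov) hFe
        hK.lat.disc K' (fi_sub hfi hK.fi) ‖t‖
      exact ⟨C, h1, fun y hy => h2 y (by rw [hy])⟩
    have hrig' : ∀ z ∈ 𝒢, ∀ (e : Chart n X) (b : Cm n → Cm (q + r)) (F0 : Cm (q + r) → W)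
        (β : Cm (q + r) → Cm s) (γ : Cm s → H) (τ : Cm s → Cm q),
        LC p F m v U π Θ N z e b F0 β γ τ →
        ∃ ρ₀ > 0, ∃ ζ : Cm s → Cm s, Cl U c N γ τ 𝒰 ε K' g (β (b (e (p z)))) ρ₀ ζ := by
      intro z hz e b F0 β γ τ hLC
      obtain ⟨ρ₀, hρ₀, ζ, -, -, h3⟩ := hR z hz e b F0 β γ τ hLC
      exact ⟨ρ₀, hρ₀, ζ, h3⟩
    have hzero : ∀ z ∈ 𝒢, F z ∉ T ∪ M₀ ∪ Mg → ∀ (e : Chart n X) (b : Cm n → Cm (q + r))
        (F0 : Cm (q + r) → W) (β : Cm (q + r) → Cm s) (γ : Cm s → H) (τ : Cm s → Cm q),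
        LC p F m v U π Θ N z e b F0 β γ τ → ∀ ρ₀ > 0, ∀ ζ : Cm s → Cm s,
        Cl U c N γ τ 𝒰 ε K' g (β (b (e (p z)))) ρ₀ ζ → ζ (β (b (e (p z)))) = 0 := by
      intro z hz hFz e b F0 β γ τ hLC ρ₀ hρ₀ ζ hcl
      obtain ⟨hconn, hregt, ⟨d, hd⟩, ⟨u, hpot, hequi⟩, hth⟩ := hgen (F z) hFz ⟨z, rfl⟩
      exact zeta_zero hp hB hK0 hK.fg hK.nvi hK'K hfi hconn hregt hd (hfund _) hpot hequi hth hL
        hK.lat.add hK.sub hcg hε0 hεt hrig' z hz rfl e b F0 β γ τ hLC ρ₀ hρ₀ ζ hcl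
    -- a good point
    haveI : Nonempty E := ⟨hreg.choose⟩
    obtain ⟨z₁, hz₁⟩ := hL.good.nonempty hp.cov
    obtain ⟨e, b, F0, β, γ, τ, hLC⟩ := hL.chart z₁ hz₁
    obtain ⟨ρ₀, hρ₀, ζ, hζd, hζne, hcl⟩ := hR z₁ hz₁ e b F0 β γ τ hLC
    set b₀ : Cm s := β (b (e (p z₁))) with hb₀
    obtain ⟨CP, -⟩ := exists_pc hLC.γan hLC.imm one_pos
    obtain ⟨ρ, hρ, hρρ, C, φ, hNI, hbd, hlim⟩ := hcl 1 K'.one_mem
    have hon := lc_onL hp.cov hL.form hLC
    have hβc : ContinuousAt (fun y => β (b (e (p y)))) z₁ := hon.self_of_nhds.1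
    -- `ζ` vanishes at the generic points
    have hζ0 : ∀ᶠ z in 𝓝 z₁, F z ∉ T ∪ M₀ ∪ Mg → ζ (β (b (e (p z)))) = 0 := by
      have hb1 : ∀ᶠ z in 𝓝 z₁, β (b (e (p z))) ∈ ball b₀ (min ρ CP.r₁) :=
        hβc.eventually (ball_mem_nhds _ (lt_min hρ CP.r₁_pos))
      filter_upwards [lc_near hp.cov hLC, hL.good.isOpen.mem_nhds hz₁, hb1] with z h1 h2 h3 hFz
      obtain ⟨ρ₀', hρ₀', ζ', -, -, hcl'⟩ := hR z h2 e b F0 β γ τ h1
      have h4 := hzero z h2 hFz e b F0 β γ τ h1 ρ₀' hρ₀' ζ' hcl'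
      obtain ⟨ρ', hρ', -, C', φ', hNI', -, hlim'⟩ := hcl' 1 K'.one_mem
      set x' := β (b (e (p z))) with hx'
      have hxρ : x' ∈ ball b₀ ρ := ball_subset_ball (min_le_left _ _) h3
      have hxC : x' ∈ ball b₀ CP.r₁ := ball_subset_ball (min_le_right _ _) h3
      have l1 := hlim x' hxρ
      have l2 := hlim' x' (mem_ball_self hρ')
      have m1 : Tendsto (fun j => φ j x') 𝒰 (𝓝 x') := by
        have := (lim_zero' hε0 hεt l1).add_const x'
        rw [zero_add] at this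
        exact this.congr fun j => by rw [sub_add_cancel]
      have m2 : Tendsto (fun j => φ' j x') 𝒰 (𝓝 x') := by
        have := (lim_zero' hε0 hεt l2).add_const x'
        rw [zero_add] at this
        exact this.congr fun j => by rw [sub_add_cancel]
      have h5 : ζ x' = ζ' x' := by
        refine tendsto_nhds_unique l1 (l2.congr' ?_)
        filter_upwards [hNI, hNI', m1.eventually (isOpen_ball.mem_nhds hxC),
          m2.eventually (isOpen_ball.mem_nhds hxC)] with j n1 n2 n3 n4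
        obtain ⟨a, ha⟩ := (n1.2 x' hxρ).1
        obtain ⟨a', ha'⟩ := (n2.2 x' (mem_ball_self hρ')).1
        have hγ0 : γ x' ≠ 0 := (CP.immAt hxC).1
        have ha0 : a ≠ 0 := by
          rintro rfl
          rw [zero_smul] at ha
          exact hγ0 ((U (1 * g j * 1⁻¹)).injective (by rw [ha, map_zero]))
        have ha0' : a' ≠ 0 := by
          rintro rfl
          rw [zero_smul] at ha'
          exact hγ0 ((U (1 * g j * 1⁻¹)).injective (by rw [ha', map_zero]))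
        have h6 : φ j x' = φ' j x' := by
          refine CP.inj n3 n4 (a := a⁻¹ * a') (mul_ne_zero (inv_ne_zero ha0) ha0') ?_
          rw [mul_smul, ← ha', ha, smul_smul, inv_mul_cancel₀ ha0, one_smul]
        rw [h6]
      rw [h5]
      exact h4
    -- but not everywhere
    have hO : {z | (F z ∉ T ∪ M₀ ∪ Mg → ζ (β (b (e (p z)))) = 0) ∧
        LC p F m v U π Θ N z e b F0 β γ τ ∧ ContinuousAt (fun y => β (b (e (p y)))) z} ∈ 𝓝 z₁ := by
      filter_upwards [hζ0, lc_near hp.cov hLC, hon] with z a1 a2 a3 using ⟨a1, a2, a3.1⟩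
    obtain ⟨O, hOs, hOo, hOz⟩ := _root_.mem_nhds_iff.1 hO
    have h1 : (fun y => β (b (e (p y)))) '' O ∈ 𝓝 b₀ :=
      hon.self_of_nhds.2.1 (image_mem_map (hOo.mem_nhds hOz))
    obtain ⟨ρ₁, hρ₁, hρ₁b⟩ := Metric.mem_nhds_iff.1 h1
    obtain ⟨x₁, hx₁, hζx₁⟩ := hζne (min ρ₁ ρ₀) (lt_min hρ₁ hρ₀)
    obtain ⟨z₂, hz₂, rfl⟩ := hρ₁b (ball_subset_ball (min_le_left _ _) hx₁)
    have hx₁' : β (b (e (p z₂))) ∈ ball b₀ ρ₀ := ball_subset_ball (min_le_right _ _) hx₁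
    obtain ⟨-, hLC₂, hc₂⟩ := hOs hz₂
    have h2 : ContinuousAt (fun z => ζ (β (b (e (p z))))) z₂ := by
      have h3 : ContinuousAt ζ (β (b (e (p z₂)))) :=
        (hζd.differentiableAt (isOpen_ball.mem_nhds hx₁')).continuousAt
      exact ContinuousAt.comp (g := ζ) (f := fun z => β (b (e (p z)))) h3 hc₂
    have h3 : {z | ζ (β (b (e (p z)))) ≠ 0 ∧ z ∈ O} ∈ 𝓝 z₂ := by
      filter_upwards [h2.eventually_ne hζx₁, hOo.mem_nhds hz₂] with z a1 a2 using ⟨a1, a2⟩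
    have h4 : F '' {z | ζ (β (b (e (p z)))) ≠ 0 ∧ z ∈ O} ∈ 𝓝 (F z₂) := by
      rw [← hLC₂.map_nhds hp.cov]
      exact image_mem_map h3
    obtain ⟨t₀, ht₀, z₃, ⟨hz₃, hz₃O⟩, rfl⟩ := (dense_of_mem_residual hbad).inter_nhds_nonempty h4
    exact hz₃ ((hOs hz₃O).1 ht₀)

end Vale.Agent.P284.H573.GG
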