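import Vale.Agent.P284.H573.G.Mfd

/-!
# P284 (helper573), target G, module G2d: limit displacements

`Lm Fp R 𝒰 ε x w`: the points `y` near `x` with `R j x y` satisfy `ε_j⁻¹ ∫_x^y Θ → w`.
`SL`: a coordinate `f` of the leaf space in which `R j` is a map `ψ_j`.
-/

open scoped Topology ContDiff Manifold
open Filter Set Metric

set_option linter.unusedSectionVars false

noncomputable section

namespace Vale.Agent.P284.H573.GG

open Vale.Agent.P272.K Vale.Agent.P284.H212 Vale.Agent.P284.H573.DK Vale.Agent.P299.H720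

section lm
variable {M : Type} [TopologicalSpace M] {W : Type} [NormedAddCommGroup W] [InnerProductSpace ℂ W]
  {ι : Type}

/-- the limit displacement at `x` -/
def Lm (Fp : M → M → W) (R : ι → M → M → Prop) (𝒰 : Ultrafilter ι) (ε : ι → ℝ) (x : M) (w : W) :
    Prop :=
  (∀ O ∈ 𝓝 x, ∀ᶠ j in (𝒰 : Filter ι), ∃ y ∈ O, R j x y) ∧
    ∃ O ∈ 𝓝 x, ∀ N ∈ 𝓝 w, ∀ᶠ j in (𝒰 : Filter ι), ∀ y ∈ O, R j x y →
      (((ε j)⁻¹ : ℝ) : ℂ) • Fp x y ∈ N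

variable {Fp : M → M → W} {R R' : ι → M → M → Prop} {𝒰 : Ultrafilter ι} {ε : ι → ℝ} {x : M} {w w' : W}

theorem Lm.unique (h : Lm Fp R 𝒰 ε x w) (h' : Lm Fp R 𝒰 ε x w') : w = w' := by
  obtain ⟨h1, O, hO, h2⟩ := h
  obtain ⟨-, O', hO', h2'⟩ := h'
  by_contra hne
  obtain ⟨N, N', hN, hN', hd⟩ := t2_separation_nhds hne
  obtain ⟨j, ⟨y, hy, hr⟩, h3, h4⟩ := ((h1 _ (inter_mem hO hO')).and ((h2 N hN).and (h2' N' hN'))).exists
  exact (Set.disjoint_left.1 hd) (h3 y hy.1 hr) (h4 y hy.2 hr)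

theorem Lm.smul {K : Type} [Group K] [MulAction K M] {π : W ≃ₗᵢ[ℂ] W} {k : K}
    (hc : ∀ k : K, Continuous fun x : M => k • x)
    (hR : ∀ j y, R' j (k • x) (k • y) ↔ R j x y)
    (hF : ∀ᶠ y in 𝓝 x, Fp (k • x) (k • y) = π (Fp x y)) (h : Lm Fp R 𝒰 ε x w) :
    Lm Fp R' 𝒰 ε (k • x) (π w) := by
  obtain ⟨h1, O, hO, h2⟩ := h
  have ht : Tendsto (fun y : M => k⁻¹ • y) (𝓝 (k • x)) (𝓝 x) := by
    have := (hc k⁻¹).tendsto (k • x)
    rwa [inv_smul_smul] at this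
  refine ⟨fun O' hO' => ?_, (fun y : M => k⁻¹ • y) ⁻¹' (O ∩ {y | Fp (k • x) (k • y) = π (Fp x y)}),
    ht (inter_mem hO hF), fun N hN => ?_⟩
  · have h3 : (fun y : M => k • y) ⁻¹' O' ∈ 𝓝 x := (hc k).continuousAt hO'
    filter_upwards [h1 _ h3] with j ⟨y, hy, hr⟩
    exact ⟨k • y, hy, (hR j y).2 hr⟩
  · have h3 : (fun w => π w) ⁻¹' N ∈ 𝓝 w := π.continuous.continuousAt hN
    filter_upwards [h2 _ h3] with j hj y hy hr
    have h4 : R j x (k⁻¹ • y) := by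
      have := (hR j (k⁻¹ • y)).1
      rw [smul_inv_smul] at this
      exact this hr
    have h5 := hj _ hy.1 h4
    have h6 : Fp (k • x) (k • (k⁻¹ • y)) = π (Fp x (k⁻¹ • y)) := hy.2
    rw [smul_inv_smul] at h6
    rw [h6]
    have h7 : π ((((ε j)⁻¹ : ℝ) : ℂ) • Fp x (k⁻¹ • y)) ∈ N := h5
    rwa [map_smul] at h7

end lm

variable {d r : ℕ} {M : Type} [TopologicalSpace M] [ChartedSpace (Cm d) M]
  {W : Type} [NormedAddCommGroup W] [InnerProductSpace ℂ W]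
variable {Fp : M → M → W} {ι : Type} {V : ι → W →ₗᵢ[ℂ] W} {R : ι → M → M → Prop}
  {𝒰 : Ultrafilter ι} {ε : ι → ℝ} {x : M}
  {f : M → Cm r} {G : Cm r → W} {ψ : ι → Cm r → Cm r} {û : Cm r → W}

/-- in the coordinate `f` of the leaf space the relation is `f y = ψ_j (f x)` -/
structure SL (Fp : M → M → W) (V : ι → W →ₗᵢ[ℂ] W) (R : ι → M → M → Prop) (𝒰 : Ultrafilter ι)
    (ε : ι → ℝ) (x : M) (f : M → Cm r) (G : Cm r → W) (ψ : ι → Cm r → Cm r) (û : Cm r → W) :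
    Prop where
  fo : ∀ᶠ y in 𝓝 x, 𝓝 (f y) ≤ map f (𝓝 y)
  pot : ∀ᶠ y in 𝓝 x, Fp x y = G (f y) - G (f x)
  ev : ∃ N ∈ 𝓝 x, ∃ A : ℝ,
    (∀ᶠ j in (𝒰 : Filter ι), ∀ y ∈ N, (∀ y' ∈ N, R j y y' ↔ f y' = ψ j (f y)) ∧
      ‖G (ψ j (f y)) - G (f y)‖ ≤ A * ε j) ∧
    (∀ᶠ j in (𝒰 : Filter ι), ∃ C, ∀ y ∈ N, V j (G (f y)) + C = G (ψ j (f y))) ∧
    ∀ y ∈ N, Tendsto (fun j => ψ j (f y)) 𝒰 (𝓝 (f y)) ∧
      Tendsto (fun j => (((ε j)⁻¹ : ℝ) : ℂ) • (G (ψ j (f y)) - G (f y))) 𝒰 (𝓝 (û (f y)))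

theorem SL.lm (hP : Prim d Fp) (h : SL Fp V R 𝒰 ε x f G ψ û) :
    ∀ᶠ y in 𝓝 x, Lm Fp R 𝒰 ε y (û (f y)) := by
  obtain ⟨N, hN, A, h1, -, h3⟩ := h.ev
  filter_upwards [h.fo, h.pot.eventually_nhds, hP.coh x, eventually_mem_nhds_iff.2 hN]
    with y a1 a2 a3 a4
  have hyN := mem_of_mem_nhds a4
  refine ⟨fun O hO => ?_, N ∩ {z | Fp x z = Fp x y + Fp y z} ∩ {z | Fp x z = G (f z) - G (f x)},
    inter_mem (inter_mem a4 a3) a2, fun O hO => ?_⟩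
  · have h4 : f '' (O ∩ N) ∈ 𝓝 (f y) := a1 (image_mem_map (inter_mem hO a4))
    filter_upwards [h1, (h3 y hyN).1.eventually h4] with j h5 ⟨y', hy', h6⟩
    exact ⟨y', hy'.1, ((h5 y hyN).1 y' hy'.2).2 h6⟩
  · filter_upwards [h1, (h3 y hyN).2.eventually hO] with j h5 h6 y' hy' hr
    have h7 := ((h5 y hyN).1 y' hy'.1.1).1 hr
    have h8 : Fp x y' = Fp x y + Fp y y' := hy'.1.2
    have h9 : Fp x y' = G (f y') - G (f x) := hy'.2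
    have h10 : Fp x y = G (f y) - G (f x) := a2.self_of_nhds
    have h11 : Fp y y' = G (ψ j (f y)) - G (f y) := by
      have : Fp y y' = Fp x y' - Fp x y := by rw [h8]; abel
      rw [this, h9, h10, h7]
      abel
    rw [h11]
    exact h6

theorem disp_eq {y : M} {j : ι} {C : W}
    (h1 : Fp x y = G (f y) - G (f x)) (h2 : V j (G (f y)) + C = G (ψ j (f y)))
    (h3 : V j (G (f x)) + C = G (ψ j (f x))) :
    disp Fp V x 0 y j = (G (ψ j (f y)) - G (f y)) - (G (ψ j (f x)) - G (f x)) := by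
  simp only [disp, Pi.zero_apply, add_zero]
  rw [h1, map_sub, ← h2, ← h3]
  abel

theorem SL.bdd (h : SL Fp V R 𝒰 ε x f G ψ û) : BddAt (disp Fp V x 0) ε (𝒰 : Filter ι) x := by
  obtain ⟨N, hN, A, h1, h2, -⟩ := h.ev
  have hxN := mem_of_mem_nhds hN
  refine ⟨2 * A, N ∩ {y | Fp x y = G (f y) - G (f x)}, inter_mem hN h.pot, ?_⟩
  filter_upwards [h1, h2] with j h3 ⟨C, h4⟩ y hy
  rw [disp_eq hy.2 (h4 y hy.1) (h4 x hxN)]
  have e1 := (h3 y hy.1).2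
  have e2 := (h3 x hxN).2
  refine (norm_sub_le _ _).trans ?_
  linarith

theorem SL.lim (h : SL Fp V R 𝒰 ε x f G ψ û) :
    ∀ᶠ y in 𝓝 x, Tendsto (fun j => (((ε j)⁻¹ : ℝ) : ℂ) • disp Fp V x 0 y j) 𝒰
      (𝓝 (û (f y) - û (f x))) := by
  obtain ⟨N, hN, A, -, h2, h3⟩ := h.ev
  have hxN := mem_of_mem_nhds hN
  filter_upwards [hN, h.pot] with y hy hy2
  have h4 := (h3 y hy).2.sub (h3 x hxN).2
  refine h4.congr' ?_
  filter_upwards [h2] with j ⟨C, h5⟩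
  rw [disp_eq hy2 (h5 y hy) (h5 x hxN)]
  exact (smul_sub _ _ _).symm

end Vale.Agent.P284.H573.GG
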