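import Vale.Agent.P284.H573.G.Psi
import Vale.Agent.P284.H573.G.Loc
import Vale.Agent.P284.H212.LF
import Vale.Agent.P284.H885.DK5

/-!
# P284 (helper573), target G, module G2d: the limit displacements on a regular fibre
-/

open scoped Manifold ContDiff Topology InnerProductSpace ComplexConjugate
open Filter Set Metric

noncomputable section

set_option linter.unusedSectionVars false

namespace Vale.Agent.P284.H573.GG

open Vale.Agent.P272.K Vale.Agent.P284.H894.G Vale.Agent.P284.H894.V Vale.Agent.P284.H894.W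
  Vale.Agent.P284.H213.Grp Vale.Agent.P284.H619 Vale.Agent.P284.H10 Vale.Agent.P284.H573
  Vale.Agent.P284.H625 Vale.Agent.P284.H378 Vale.Agent.P284.H212 Vale.Agent.P284.H395
  Vale.Agent.P284.H885.DK

section rel
variable {n R : ℕ} {X : Type} [TopologicalSpace X] [ChartedSpace (Cm n) X] {E : Type}
  {H : Type} [NormedAddCommGroup H] [InnerProductSpace ℂ H]
  {p : E → X} {v : E → Chart n X → (Fin R → Cm n) → H}

/-- `V` maps the line of `v` at `y` to the line at `y'` -/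
def Rel (p : E → X) (v : E → Chart n X → (Fin R → Cm n) → H) (V : H →ₗᵢ[ℂ] H) (y y' : E) : Prop :=
  ∀ x, OnL p v y x → OnL p v y' (V x)

lemma onL_mul {y : E} {x : H} {a : ℂ} (ha : a ≠ 0) (h : OnL p v y x) : OnL p v y (a • x) := by
  refine ⟨smul_ne_zero ha h.1, fun e he ξ => ?_⟩
  obtain ⟨b, hb⟩ := h.2 e he ξ
  exact ⟨b * a⁻¹, by rw [hb, smul_smul, mul_assoc, inv_mul_cancel₀ ha, mul_one]⟩

lemma rel_iff {V : H →ₗᵢ[ℂ] H} {y y' : E} {x x' : H} (hy : H395.NZ p v y) (hx : OnL p v y x)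
    (hy' : H395.NZ p v y') (hx' : OnL p v y' x') : Rel p v V y y' ↔ ∃ a : ℂ, a ≠ 0 ∧ V x = a • x' := by
  constructor
  · intro h
    exact OnL.prop hy' hx' (h x hx)
  · rintro ⟨a, ha, h⟩ x₁ hx₁
    obtain ⟨b, hb, rfl⟩ := OnL.prop hy hx hx₁
    rw [map_smul, h, smul_smul]
    exact onL_mul (mul_ne_zero hb ha) hx'

end rel

section
variable {n q r k s m d : ℕ} {X E Γ W H : Type} [TopologicalSpace X] [ChartedSpace (Cm n) X]
  [TopologicalSpace E] [Group Γ] [MulAction Γ E]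
  [NormedAddCommGroup W] [InnerProductSpace ℂ W] [CompleteSpace W] [NormedAddCommGroup H]
  [InnerProductSpace ℂ H] [CompleteSpace H] {p : E → X} {F : E → Cm q} {t : Cm q}
  {w : Chart n X → Cm n → Matrix (Fin n) (Fin n) ℂ} {B : ℝ}
  {v : E → Chart n X → (Fin (q + r) → Cm n) → H}
  {U : Γ → (H →ₗᵢ[ℂ] H)} {π : Γ →* (W ≃ₗᵢ[ℂ] W)} {Θ : E → Chart n X → (Cm n →L[ℂ] W)}
  {N : Cm k →L[ℂ] Cm q} {z : E} {e : Chart n X} {b : Cm n → Cm (q + r)}
  {F0 : Cm (q + r) → W} {β : Cm (q + r) → Cm s} {γ : Cm s → H} {τ : Cm s → Cm q} {u : E → W}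

/-- the slice coordinate on the fibre -/
theorem slice_fib [IsManifold 𝓘(ℂ, Cm n) ω X] (hp : IsCoveringMap p) (hF : HolB p w F B)
    (h : HCh d n p F t) (hpot : VPot p F t W Θ u) (x : F ⁻¹' {t})
    (hL : LC p F m v U π Θ N (x : E) e b F0 β γ τ) :
    letI := fibCS h
    (∀ᶠ y : F ⁻¹' {t} in 𝓝 x, Fp h hpot x y =
        F0 (ins t (yrc q r (b (e (p (y : E)))))) - F0 (ins t (yrc q r (b (e (p (x : E))))))) ∧
      ∀ᶠ x₁ : F ⁻¹' {t} in 𝓝 x, 𝓝 (yrc q r (b (e (p (x₁ : E))))) ≤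
        map (fun y : F ⁻¹' {t} => yrc q r (b (e (p (y : E))))) (𝓝 x₁) := by
  letI := fibCS h
  have hFz : F (x : E) = tq (b (e (p (x : E)))) := hL.t_eq.self_of_nhds
  set x₀ := b (e (p (x : E))) with hx₀
  have htx : tq x₀ = t := by rw [← hFz]; exact x.2
  set u₀ := yrc q r x₀ with hu₀
  have hi0 : ins t u₀ = x₀ := by rw [← htx]; exact ins_eta x₀
  set G : Cm r → W := fun u => F0 (ins t u) with hG
  have hGan : AnalyticAt ℂ G u₀ := by
    refine AnalyticAt.fun_comp ?_ (ins_an _ _)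
    rw [hi0]; exact hL.F0an
  have hb' : AnalyticAt ℂ (fun z => yrc q r (b z)) (e (p (x : E))) :=
    ((yrc q r).analyticAt _).comp hL.ban
  have hsur : ∀ x' : Cm r, ∃ ξ ∈ VS p F (x : E) e,
      fderiv ℂ (fun z => yrc q r (b z)) (e (p (x : E))) ξ = x' := by
    intro x'
    obtain ⟨ξ, hξ⟩ := hL.bsurj (ins 0 x')
    have hdb := hL.ban.differentiableAt.hasFDerivAt
    refine ⟨ξ, ?_, ?_⟩
    · rw [mem_VS hp hL.mem (f := fun z => tq (b z)) hL.t_eq]
      have h3 : HasFDerivAt (fun z => tq (b z)) (tqc q r ∘L fderiv ℂ b (e (p (x : E))))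
          (e (p (x : E))) := (tqc q r).hasFDerivAt.comp _ hdb
      rw [h3.fderiv, ContinuousLinearMap.comp_apply, hξ, tqc_apply, tq_ins]
    · have h3 : HasFDerivAt (fun z => yrc q r (b z)) (yrc q r ∘L fderiv ℂ b (e (p (x : E))))
          (e (p (x : E))) := (yrc q r).hasFDerivAt.comp _ hdb
      rw [h3.fderiv, ContinuousLinearMap.comp_apply, hξ, yrc_ins]
  have hev : ∀ᶠ y in 𝓝 (x : E), F y = F (x : E) → ∀ ξ ∈ VS p F y e,
      Θ y e ξ = fderiv ℂ (fun z => G (yrc q r (b z))) (e (p y)) ξ := by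
    have hbt : Tendsto (fun y => b (e (p y))) (𝓝 (x : E)) (𝓝 x₀) :=
      hL.ban.continuousAt.tendsto.comp (map_ep hp hL.mem).le
    filter_upwards [hL.pot, hL.t_eq.eventually_nhds, at_ev hp hL.mem,
      (ev_iff hp hL.mem).2 hL.ban.eventually_analyticAt,
      hbt.eventually hL.F0an.eventually_analyticAt] with y a1 a2 a3 a4 a5 hy ξ hξ
    rw [a1 ξ hξ]
    have hty : F y = tq (b (e (p y))) := a2.self_of_nhds
    have hb0 : ins t (yrc q r (b (e (p y)))) = b (e (p y)) :=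
      eq_ins_of_tq (by rw [← hty, hy, hFz, htx])
    have hdb := a4.differentiableAt.hasFDerivAt
    have h3 : HasFDerivAt (fun z => F0 (b z))
        (fderiv ℂ F0 (b (e (p y))) ∘L fderiv ℂ b (e (p y))) (e (p y)) :=
      a5.differentiableAt.hasFDerivAt.comp _ hdb
    have h4 : HasFDerivAt (fun z => G (yrc q r (b z)))
        ((fderiv ℂ F0 (b (e (p y))) ∘L insL q r) ∘L (yrc q r ∘L fderiv ℂ b (e (p y))))
        (e (p y)) := by
      have h5 : HasFDerivAt F0 (fderiv ℂ F0 (b (e (p y))))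
          (ins t (yrc q r (b (e (p y))))) := by
        rw [hb0]; exact a5.differentiableAt.hasFDerivAt
      have h9 : HasFDerivAt (fun z => yrc q r (b z)) (yrc q r ∘L fderiv ℂ b (e (p y)))
          (e (p y)) := (yrc q r).hasFDerivAt.comp _ hdb
      have h10 := h5.comp (yrc q r (b (e (p y)))) (ins_hasFDerivAt t _)
      exact HasFDerivAt.comp (g := G) (f := fun z => yrc q r (b z)) (e (p y)) h10 h9
    rw [h3.fderiv, h4.fderiv]
    have h6 : tq (fderiv ℂ b (e (p y)) ξ) = 0 := by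
      have h7 := (mem_VS hp a3 (f := fun z => tq (b z)) a2).1 hξ
      have h8 : HasFDerivAt (fun z => tq (b z)) (tqc q r ∘L fderiv ℂ b (e (p y))) (e (p y)) :=
        (tqc q r).hasFDerivAt.comp _ hdb
      rw [h8.fderiv] at h7
      exact h7
    simp only [ContinuousLinearMap.comp_apply, insL_apply]
    rw [eq_ins_of_tq h6]
  obtain ⟨-, -, h3, h4⟩ := slide_fib hp hF h hpot x hL.mem hb' hGan hsur hev
  exact ⟨h3, h4⟩

/-- the lines of `v` near a good point -/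
theorem lc_onL (hp : IsCoveringMap p) (hform : HForm n (q + r) m p H v)
    (hL : LC p F m v U π Θ N z e b F0 β γ τ) :
    ∀ᶠ y in 𝓝 z, ContinuousAt (fun y => β (b (e (p y)))) y ∧
      𝓝 (β (b (e (p y)))) ≤ map (fun y => β (b (e (p y)))) (𝓝 y) ∧
      H395.NZ p v y ∧ OnL p v y (γ (β (b (e (p y))))) := by
  have h := lch_mk (F := F) (T := (0 : Cm q →L[ℂ] Cm q)) hp hform hL.mem hL.ban hL.bsurj hL.βan
    hL.βsurj hL.γan hL.imm hL.v_eq hL.τan (Eventually.of_forall fun y' => rfl)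
  exact h.ev.mono fun y hy => ⟨hy.1, hy.2.1, hy.2.2.1, hy.2.2.2.1⟩

/-- **the limit displacements near a good point of the fibre** -/
theorem exists_sl [IsManifold 𝓘(ℂ, Cm n) ω X] (hp : IsCoveringMap p) (hF : HolB p w F B)
    (h : HCh d n p F t) (hpot : VPot p F t W Θ u) (hform : HForm n (q + r) m p H v)
    (hdim : q + r = s + k) (hN : Function.Injective N) {c : Γ → Cm q} (x : F ⁻¹' {t})
    (hL : LC p F m v U π Θ N (x : E) e b F0 β γ τ) {ρ₀ : ℝ} {ζ : Cm s → Cm s} :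
    letI := fibCS h
    ∃ (f : F ⁻¹' {t} → Cm r) (G : Cm r → W) (û : Cm r → W),
      ∀ (𝒰 : Ultrafilter ℕ) (ε : ℕ → ℝ), (∀ᶠ j in (𝒰 : Filter ℕ), 0 < ε j) →
      Tendsto ε 𝒰 (𝓝 0) → ∀ (g : ℕ → Γ), (∀ j, c (g j) = 0) →
      ∀ ρ > 0, ρ ≤ ρ₀ → ∀ (C : ℝ) (φ : ℕ → Cm s → Cm s),
      (∀ᶠ j in (𝒰 : Filter ℕ), NI U c N γ τ (β (b (e (p (x : E))))) ρ (g j) (φ j)) →
      (∀ᶠ j in (𝒰 : Filter ℕ), ∀ x' ∈ ball (β (b (e (p (x : E))))) ρ, ‖φ j x' - x'‖ ≤ C * ε j) →
      (∀ x' ∈ ball (β (b (e (p (x : E))))) ρ,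
        Tendsto (fun j => (((ε j)⁻¹ : ℝ) : ℂ) • (φ j x' - x')) 𝒰 (𝓝 (ζ x'))) →
      (∃ ψ, SL (Fp h hpot) (fun j => (π (g j)).toLinearIsometry)
        (fun j (y y' : F ⁻¹' {t}) => Rel p v (U (g j)) (y : E) (y' : E)) 𝒰 ε x f G ψ û) ∧
      (∃ ξ ∈ VS p F (x : E) e, Θ (x : E) e ξ = û (f x)) ∧
      (û (f x) = 0 → ζ (β (b (e (p (x : E))))) = 0) := by
  letI := fibCS h
  have hFz : F (x : E) = tq (b (e (p (x : E)))) := hL.t_eq.self_of_nhds
  set x₀ := b (e (p (x : E))) with hx₀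
  have htx : tq x₀ = t := by rw [← hFz]; exact x.2
  obtain ⟨P, hP⟩ : ∃ P : Cm q →L[ℂ] Cm k, ∀ x, P (N x) = x := by
    obtain ⟨g, hg⟩ := LinearMap.exists_leftInverse_of_injective (N : Cm k →ₗ[ℂ] Cm q)
      (LinearMap.ker_eq_bot.2 hN)
    exact ⟨LinearMap.toContinuousLinearMap g, fun x => LinearMap.congr_fun hg x⟩
  obtain ⟨I, R, KG, hS, hψ⟩ := exists_psi' hdim hP hL.βan hL.trans hL.τan hL.leaf (c := c) hL.F0an
    hL.sheet
  obtain ⟨CP, -⟩ := exists_pc hL.γan hL.imm one_pos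
  have hFI : ∀ z ∈ ball (β x₀, P (tq x₀)) R, AnalyticAt ℂ (fun z => F0 (I z)) z := fun z hz =>
    AnalyticAt.fun_comp (hS.an z hz).2.1 (hS.an z hz).1
  refine ⟨fun y => yrc q r (b (e (p (y : E)))), fun u => F0 (ins t u),
    fun u => fderiv ℂ (fun z => F0 (I z)) (β (ins t u), P t) (ζ (β (ins t u)), 0), ?_⟩
  intro 𝒰 ε hε0 hεt g hcg ρ hρ hρρ₀ C φ hNI hbd hlim
  obtain ⟨ρ', hρ', hin, δ, hδ, hmain⟩ := hψ ρ hρ
  obtain ⟨hpot', hopen⟩ := slice_fib hp hF h hpot x hL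
  -- eventually in `j`
  have hCε : Tendsto (fun j => C * ε j) 𝒰 (𝓝 0) := by
    simpa using hεt.const_mul C
  have hr₁ := CP.r₁_pos
  have hgood : ∀ᶠ j in (𝒰 : Filter ℕ), NI U c N γ τ (β x₀) ρ (g j) (φ j) ∧
      (∀ x' ∈ ball (β x₀) ρ, ‖φ j x' - x'‖ ≤ C * ε j) ∧ C * ε j < min δ (CP.r₁ / 2) := by
    filter_upwards [hNI, hbd, hCε.eventually (gt_mem_nhds (show (0 : ℝ) < min δ (CP.r₁ / 2) by
      positivity))] with j h1 h2 h3 using ⟨h1, h2, h3⟩
  -- the neighbourhood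
  have hep : Tendsto (fun y' : E => e (p y')) (𝓝 (x : E)) (𝓝 (e (p (x : E)))) :=
    (map_ep hp hL.mem).le
  have hbp : Tendsto (fun y' : E => b (e (p y'))) (𝓝 (x : E)) (𝓝 x₀) :=
    hL.ban.continuousAt.tendsto.comp hep
  have hβp : Tendsto (fun y' : E => β (b (e (p y')))) (𝓝 (x : E)) (𝓝 (β x₀)) :=
    hL.βan.continuousAt.tendsto.comp hbp
  have hNev : ∀ᶠ y in 𝓝 (x : E), b (e (p y)) ∈ ball x₀ ρ' ∧ F y = tq (b (e (p y))) ∧
      β (b (e (p y))) ∈ ball (β x₀) (CP.r₁ / 2) ∧ H395.NZ p v y ∧ OnL p v y (γ (β (b (e (p y))))) :=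
    (hbp.eventually (ball_mem_nhds _ hρ')).and (hL.t_eq.and ((hβp.eventually
      (ball_mem_nhds _ (by positivity))).and ((lc_onL hp hform hL).mono fun y hy =>
        ⟨hy.2.2.1, hy.2.2.2⟩)))
  set S : Set (F ⁻¹' {t}) := {y | b (e (p (y : E))) ∈ ball x₀ ρ' ∧
      F (y : E) = tq (b (e (p (y : E)))) ∧ β (b (e (p (y : E)))) ∈ ball (β x₀) (CP.r₁ / 2) ∧
      H395.NZ p v (y : E) ∧ OnL p v (y : E) (γ (β (b (e (p (y : E))))))} with hSdef
  have hSn : S ∈ 𝓝 x := ev_fib.2 (hNev.mono fun y hy _ => hy)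
  -- pointwise facts
  have htB : ∀ y ∈ S, tq (b (e (p (y : E)))) = t := fun y hy => by rw [← hy.2.1]; exact y.2
  have hins : ∀ y ∈ S, ins t (yrc q r (b (e (p (y : E))))) = b (e (p (y : E))) := fun y hy =>
    eq_ins_of_tq (htB y hy)
  have hIB : ∀ y ∈ S, I (β (b (e (p (y : E)))), P t) = b (e (p (y : E))) := fun y hy => by
    have := (hin _ hy.1).2.2
    rwa [htB y hy] at this
  have hmem : ∀ y ∈ S, (β (b (e (p (y : E)))), P t) ∈ ball (β x₀, P (tq x₀)) R := fun y hy => by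
    have := (hin _ hy.1).2.1
    rwa [htB y hy] at this
  have hmem' : ∀ j, NI U c N γ τ (β x₀) ρ (g j) (φ j) ∧
      (∀ x' ∈ ball (β x₀) ρ, ‖φ j x' - x'‖ ≤ C * ε j) ∧ C * ε j < min δ (CP.r₁ / 2) → ∀ y ∈ S,
      (φ j (β (b (e (p (y : E))))), P t) ∈ ball (β x₀, P (tq x₀)) R ∧
      tq (I (φ j (β (b (e (p (y : E))))), P t)) = t ∧
      φ j (β (b (e (p (y : E))))) ∈ ball (β x₀) CP.r₁ := by
    intro j hj y hy
    have h1 := (hmain (g j) (φ j) (hcg j) hj.1 (fun x' hx' => (hj.2.1 x' hx').trans_lt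
      (hj.2.2.trans_le (min_le_left _ _)))).1 _ hy.1
    rw [htB y hy] at h1
    refine ⟨h1.1, h1.2, ?_⟩
    have h2 := hj.2.1 _ (hin _ hy.1).1
    have h3 := hj.2.2.trans_le (min_le_right _ _)
    have h4 := hy.2.2.1
    rw [mem_ball, dist_eq_norm] at h4 ⊢
    calc ‖φ j (β (b (e (p (y : E))))) - β x₀‖
        = ‖(φ j (β (b (e (p (y : E))))) - β (b (e (p (y : E))))) +
          (β (b (e (p (y : E)))) - β x₀)‖ := by rw [sub_add_sub_cancel]
      _ ≤ ‖φ j (β (b (e (p (y : E))))) - β (b (e (p (y : E))))‖ +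
          ‖β (b (e (p (y : E)))) - β x₀‖ := norm_add_le _ _
      _ < CP.r₁ := by linarith
  have hβI : ∀ zz ∈ ball (β x₀, P (tq x₀)) R, β (I zz) = zz.1 := fun zz hzz => (hS.an zz hzz).2.2.1
  have hxS : x ∈ S := mem_of_mem_nhds hSn
  refine ⟨⟨fun j u => yrc q r (I (φ j (β (ins t u)), P t)), hopen, hpot', S, hSn, KG * C, ?_, ?_, ?_⟩,
    ?_⟩
  · -- the relation and the bound
    filter_upwards [hgood] with j hj y hy
    obtain ⟨m1, m2, m3⟩ := hmem' j hj y hy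
    refine ⟨fun y' hy' => ?_, ?_⟩
    · have hrel := rel_iff (V := U (g j)) hy.2.2.2.1 hy.2.2.2.2 hy'.2.2.2.1 hy'.2.2.2.2
      obtain ⟨a, ha⟩ := (hj.1.2 _ (hin _ hy.1).1).1
      have ha0 : a ≠ 0 := by
        rintro rfl
        rw [zero_smul] at ha
        exact hy.2.2.2.2.1 ((U (g j)).injective (by rw [ha, map_zero]))
      show Rel p v (U (g j)) (y : E) (y' : E) ↔ yrc q r (b (e (p (y' : E)))) =
        yrc q r (I (φ j (β (ins t (yrc q r (b (e (p (y : E))))))), P t))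
      rw [hins y hy]
      constructor
      · intro hr
        obtain ⟨a', ha', h1⟩ := hrel.1 hr
        have h2 : φ j (β (b (e (p (y : E))))) = β (b (e (p (y' : E)))) := by
          refine CP.inj m3 (ball_subset_ball (by linarith) hy'.2.2.1) (a := a⁻¹ * a')
            (mul_ne_zero (inv_ne_zero ha0) ha') ?_
          rw [mul_smul, ← h1, ha, smul_smul, inv_mul_cancel₀ ha0, one_smul]
        rw [h2, hIB y' hy']
      · intro hr
        have h1 : b (e (p (y' : E))) = I (φ j (β (b (e (p (y : E))))), P t) := by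
          rw [← hins y' hy', hr]
          exact eq_ins_of_tq m2
        have h2 : β (b (e (p (y' : E)))) = φ j (β (b (e (p (y : E))))) := by
          rw [h1, hβI _ m1]
        refine hrel.2 ⟨a, ha0, ?_⟩
        rw [h2]
        exact ha
    · show ‖F0 (ins t (yrc q r (I (φ j (β (ins t (yrc q r (b (e (p (y : E))))))), P t)))) -
        F0 (ins t (yrc q r (b (e (p (y : E))))))‖ ≤ _
      rw [hins y hy, eq_ins_of_tq m2]
      have h1 := hS.lip _ m1 _ (hmem y hy)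
      rw [hIB y hy] at h1
      refine h1.trans ?_
      rw [mul_assoc]
      refine mul_le_mul_of_nonneg_left ?_ hS.KG_nn
      rw [Prod.mk_sub_mk, sub_self, Prod.norm_def]
      simpa using hj.2.1 _ (hin _ hy.1).1
  · filter_upwards [hgood] with j hj
    obtain ⟨C', hC'⟩ := (hmain (g j) (φ j) (hcg j) hj.1 (fun x' hx' => (hj.2.1 x' hx').trans_lt
      (hj.2.2.trans_le (min_le_left _ _)))).2
    refine ⟨C', fun y hy => ?_⟩
    obtain ⟨m1, m2, m3⟩ := hmem' j hj y hy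
    show π (g j) (F0 (ins t (yrc q r (b (e (p (y : E))))))) + C' =
      F0 (ins t (yrc q r (I (φ j (β (ins t (yrc q r (b (e (p (y : E))))))), P t))))
    rw [hins y hy, eq_ins_of_tq m2]
    have := hC' _ hy.1 (by rw [htB y hy, htx])
    rwa [htB y hy] at this
  · intro y hy
    have h1 := hlim _ (hin _ hy.1).1
    have h0 : (fun j => (((ε j)⁻¹ : ℝ) : ℂ) • (((φ j (β (b (e (p (y : E))))), P t) : Cm s × Cm k) -
        (β (b (e (p (y : E)))), P t))) =
        fun j => ((((ε j)⁻¹ : ℝ) : ℂ) • (φ j (β (b (e (p (y : E))))) - β (b (e (p (y : E))))),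
          (0 : Cm k)) := by
      funext j
      rw [Prod.mk_sub_mk, sub_self, Prod.smul_mk, smul_zero]
    have h2 : Tendsto (fun j => (((ε j)⁻¹ : ℝ) : ℂ) •
        (((φ j (β (b (e (p (y : E))))), P t) : Cm s × Cm k) - (β (b (e (p (y : E)))), P t))) 𝒰
        (𝓝 (ζ (β (b (e (p (y : E))))), 0)) := by
      rw [h0]
      exact h1.prodMk_nhds tendsto_const_nhds
    have hyS := hins y hy
    constructor
    · show Tendsto (fun j => yrc q r (I (φ j (β (ins t (yrc q r (b (e (p (y : E))))))), P t))) 𝒰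
        (𝓝 (yrc q r (b (e (p (y : E))))))
      rw [hyS]
      have h3 := lim_zero' hε0 hεt h2
      have h4 : Tendsto (fun j => ((φ j (β (b (e (p (y : E))))), P t) : Cm s × Cm k)) 𝒰
          (𝓝 (β (b (e (p (y : E)))), P t)) := by
        have h5 := h3.add_const (β (b (e (p (y : E)))), P t)
        rw [zero_add] at h5
        refine h5.congr fun j => ?_
        rw [sub_add_cancel]
      have h5 := (hS.an _ (hmem y hy)).1.continuousAt.tendsto.comp h4
      rw [hIB y hy] at h5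
      exact ((yrc q r).continuous.tendsto _).comp h5
    · have h3 := lim_dir' hε0 hεt (hFI _ (hmem y hy)).differentiableAt.hasFDerivAt h2
      show Tendsto (fun j => (((ε j)⁻¹ : ℝ) : ℂ) • (F0 (ins t (yrc q r (I (φ j (β (ins t (yrc q r
        (b (e (p (y : E))))))), P t)))) - F0 (ins t (yrc q r (b (e (p (y : E)))))))) 𝒰
        (𝓝 (fderiv ℂ (fun z => F0 (I z)) (β (ins t (yrc q r (b (e (p (y : E)))))), P t)
          (ζ (β (ins t (yrc q r (b (e (p (y : E))))))), 0)))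
      rw [hyS]
      rw [hIB y hy] at h3
      refine h3.congr' ?_
      filter_upwards [hgood] with j hj
      rw [eq_ins_of_tq (hmem' j hj y hy).2.1]
  · -- the base point
    have hx0S : ins t (yrc q r x₀) = x₀ := hins x hxS
    have hm0 : (β x₀, P t) ∈ ball (β x₀, P (tq x₀)) R := hmem x hxS
    have hI0 : I (β x₀, P t) = x₀ := hIB x hxS
    set η : Cm (q + r) := fderiv ℂ I (β x₀, P t) (ζ (β x₀), 0) with hη
    have hId : HasFDerivAt I (fderiv ℂ I (β x₀, P t)) (β x₀, P t) :=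
      (hS.an _ hm0).1.differentiableAt.hasFDerivAt
    have h1 := hlim _ (mem_ball_self hρ)
    have h0 : (fun j => (((ε j)⁻¹ : ℝ) : ℂ) • (((φ j (β x₀), P t) : Cm s × Cm k) -
        (β x₀, P t))) = fun j => ((((ε j)⁻¹ : ℝ) : ℂ) • (φ j (β x₀) - β x₀), (0 : Cm k)) := by
      funext j
      rw [Prod.mk_sub_mk, sub_self, Prod.smul_mk, smul_zero]
    have h2 : Tendsto (fun j => (((ε j)⁻¹ : ℝ) : ℂ) •
        (((φ j (β x₀), P t) : Cm s × Cm k) - (β x₀, P t))) 𝒰 (𝓝 (ζ (β x₀), 0)) := by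
      rw [h0]
      exact h1.prodMk_nhds tendsto_const_nhds
    have htη : tq η = 0 := by
      have h3 : HasFDerivAt (fun z => tqc q r (I z)) ((tqc q r) ∘L fderiv ℂ I (β x₀, P t))
          (β x₀, P t) := (tqc q r).hasFDerivAt.comp _ hId
      have h4 := lim_dir' hε0 hεt h3 h2
      have h5 : Tendsto (fun j => (((ε j)⁻¹ : ℝ) : ℂ) • (tqc q r (I (φ j (β x₀), P t)) -
          tqc q r (I (β x₀, P t)))) 𝒰 (𝓝 0) := by
        refine tendsto_const_nhds.congr' ?_
        filter_upwards [hgood] with j hj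
        rw [tqc_apply, tqc_apply, hI0, htx, (hmem' j hj x hxS).2.1, sub_self, smul_zero]
      exact tendsto_nhds_unique h4 h5
    have hû : fderiv ℂ (fun z => F0 (I z)) (β (ins t (yrc q r x₀)), P t)
        (ζ (β (ins t (yrc q r x₀))), 0) = fderiv ℂ F0 x₀ η := by
      rw [hx0S]
      have h3 : HasFDerivAt F0 (fderiv ℂ F0 x₀) (I (β x₀, P t)) := by
        rw [hI0]; exact hL.F0an.differentiableAt.hasFDerivAt
      have h4 : HasFDerivAt (fun z => F0 (I z)) (fderiv ℂ F0 x₀ ∘L fderiv ℂ I (β x₀, P t))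
          (β x₀, P t) := h3.comp _ hId
      rw [h4.fderiv]
      rfl
    have hβη : fderiv ℂ β x₀ η = ζ (β x₀) := by
      have h3 : HasFDerivAt β (fderiv ℂ β x₀) (I (β x₀, P t)) := by
        rw [hI0]; exact hL.βan.differentiableAt.hasFDerivAt
      have h4 : HasFDerivAt (fun z => β (I z)) (fderiv ℂ β x₀ ∘L fderiv ℂ I (β x₀, P t))
          (β x₀, P t) := h3.comp _ hId
      have h5 : HasFDerivAt (fun z : Cm s × Cm k => β (I z)) (ContinuousLinearMap.fst ℂ (Cm s) (Cm k))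
          (β x₀, P t) := by
        refine (ContinuousLinearMap.fst ℂ (Cm s) (Cm k)).hasFDerivAt.congr_of_eventuallyEq ?_
        filter_upwards [isOpen_ball.mem_nhds hm0] with z hz
        exact hβI z hz
      have h6 := congrArg (fun L : Cm s × Cm k →L[ℂ] Cm s => L (ζ (β x₀), 0)) (h4.unique h5)
      exact h6
    constructor
    · obtain ⟨ξ, hξ⟩ := hL.bsurj η
      have hdb := hL.ban.differentiableAt.hasFDerivAt
      have hξV : ξ ∈ VS p F (x : E) e := by
        rw [mem_VS hp hL.mem (f := fun z => tq (b z)) hL.t_eq]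
        have h3 : HasFDerivAt (fun z => tq (b z)) (tqc q r ∘L fderiv ℂ b (e (p (x : E))))
            (e (p (x : E))) := (tqc q r).hasFDerivAt.comp _ hdb
        rw [h3.fderiv, ContinuousLinearMap.comp_apply, hξ, tqc_apply, htη]
      refine ⟨ξ, hξV, ?_⟩
      rw [hL.pot.self_of_nhds ξ hξV]
      have h3 : HasFDerivAt (fun z => F0 (b z))
          (fderiv ℂ F0 x₀ ∘L fderiv ℂ b (e (p (x : E)))) (e (p (x : E))) :=
        hL.F0an.differentiableAt.hasFDerivAt.comp _ hdb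
      rw [h3.fderiv, ContinuousLinearMap.comp_apply, hξ]
      exact hû.symm
    · intro h3
      have h4 : fderiv ℂ F0 x₀ η = 0 := by rw [← hû]; exact h3
      have h5 := hL.F0imm η htη h4
      rw [← hβη, h5, map_zero]

end

end Vale.Agent.P284.H573.GG
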