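import Vale.Agent.P284.H619.NulP
import Vale.Agent.P284.H221.C7

/-!
# P284 (helper573), target G, module G2d: no fixed vectors in the images of `Θ`

(After helper619's `nulStmt` and helper378's `nulF`.)
-/

open scoped Manifold ContDiff Topology InnerProductSpace ComplexConjugate Pointwise
open Filter Set Metric

noncomputable section

namespace Vale.Agent.P284.H573.GG

open Vale.Agent.P272.K Vale.Agent.P284.H894.G Vale.Agent.P284.H894.V Vale.Agent.P284.H894.W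
  Vale.Agent.P284.H213.Grp Vale.Agent.P284.H619

/-- a vector in an image of `Θ` which is fixed by a subgroup of finite index vanishes -/
theorem nul_fix {n q : ℕ} {X : Type} [TopologicalSpace X] [T2Space X]
    [ChartedSpace (Cm n) X] [IsManifold 𝓘(ℂ, Cm n) ω X] {E Γ : Type} [TopologicalSpace E]
    [Group Γ] [MulAction Γ E] {p : E → X} (hG : IsGalois Γ p) {F : E → Cm q} {K K' : Subgroup Γ}
    (hF : HolE n p F) (hF0 : ∀ k ∈ K, ∀ y, F (k • y) = F y) (hfg : Group.FG K)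
    (hnvi : ¬ VirtIndicable K) (hK'K : K' ≤ K) (hfi : (K'.subgroupOf K).FiniteIndex) {t : Cm q}
    {D : Set E} (hD : IsCompact D) (hDcov : ∀ y : E, F y = t → ∃ k ∈ K', k • y ∈ D)
    (hcon : IsConnected (F ⁻¹' {t})) (hreg : ∀ y, F y = t → Reg (n := n) p F y)
    {W : Type} [NormedAddCommGroup W] [InnerProductSpace ℂ W] [CompleteSpace W]
    {π : Γ →* (W ≃ₗᵢ[ℂ] W)} {Θ : E → Chart n X → (Cm n →L[ℂ] W)} {u : E → W}
    (hΘ : VPot p F t W Θ u) (hE : VEqui p F t K π Θ u) {v : W} (hfix : ∀ k ∈ K', π k v = v)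
    {y₁ : E} {e₁ : Chart n X} {ξ : Cm n} (hy₁ : F y₁ = t) (he₁ : At e₁ (p y₁))
    (hξ : ξ ∈ VS p F y₁ e₁) (hξv : Θ y₁ e₁ ξ = v) : v = 0 := by
  have hp := hG.cov
  -- the periods vanish
  have hper : ∀ w, (∀ k ∈ K', π k w = w) → ∀ k ∈ K', ∀ y, F y = t →
      ⟪w, u (k • y)⟫_ℂ = ⟪w, u y⟫_ℂ := by
    intro w hw
    have hb : ∀ k : Γ, ∃ b : W, k ∈ K → ∀ y, F y = t → u (k • y) = π k (u y) + b := by
      intro k
      by_cases hk : k ∈ K
      · obtain ⟨b, hb⟩ := hE.pot k hk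
        exact ⟨b, fun _ => hb⟩
      · exact ⟨0, fun h => absurd h hk⟩
    choose b hb using hb
    have h1 : ∀ k ∈ K', ∀ y, F y = t → ⟪w, u (k • y)⟫_ℂ = ⟪w, u y⟫_ℂ + ⟪w, b k⟫_ℂ := by
      intro k hk y hy
      rw [hb k (hK'K hk) y hy, inner_add_right]
      congr 1
      have h2 : π k w = w := hw k hk
      calc ⟪w, π k (u y)⟫_ℂ = ⟪π k w, π k (u y)⟫_ℂ := by rw [h2]
        _ = ⟪w, u y⟫_ℂ := (π k).inner_map_map _ _
    have h2 : ∀ k ∈ K', ∀ k' ∈ K', ⟪w, b (k * k')⟫_ℂ = ⟪w, b k⟫_ℂ + ⟪w, b k'⟫_ℂ := by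
      intro k hk k' hk'
      have e1 := h1 (k * k') (K'.mul_mem hk hk') y₁ hy₁
      have e2 := h1 k hk (k' • y₁) (by rw [hF0 k' (hK'K hk'), hy₁])
      have e3 := h1 k' hk' y₁ hy₁
      rw [mul_smul, e2, e3] at e1
      have e4 : ⟪w, b k'⟫_ℂ + ⟪w, b k⟫_ℂ = ⟪w, b (k * k')⟫_ℂ := by
        rw [add_assoc] at e1
        exact add_left_cancel e1
      rw [← e4, add_comm]
    have h3 := Vale.Agent.P284.H221.hom_zero_sub (K := K) hfg hnvi hK'K hfi
      (fun k => ⟪w, b k⟫_ℂ) h2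
    intro k hk y hy
    rw [h1 k hk y hy, h3 k hk, add_zero]
  -- `Re ⟪w, u⟫` is constant on the fibre
  have hre : ∀ w, (∀ k ∈ K', π k w = w) → ∃ M : ℝ, ∀ y, F y = t → (⟪w, u y⟫_ℂ).re = M := by
    intro w hw
    refine re_const hp hF hcon hreg (fun y e hy he => ?_) hD (fun y hy => ?_)
    · obtain ⟨g, h, hg, hh, hev⟩ := hΘ.pot y e hy he w
      refine ⟨fun z => g z + h z, hg.add hh, ?_⟩
      filter_upwards [hev] with y' k1 k2
      rw [(k1 k2).1, Complex.add_re, Complex.add_re, Complex.conj_re]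
    · obtain ⟨k, hk, hkD⟩ := hDcov y hy
      exact ⟨k • y, hkD, by rw [hF0 k (hK'K hk), hy], by rw [hper w hw k hk y hy]⟩
  -- hence `⟪w, u⟫` is constant
  have hco : ∃ M : ℂ, ∀ y, F y = t → ⟪v, u y⟫_ℂ = M := by
    obtain ⟨M₁, h1⟩ := hre v hfix
    obtain ⟨M₂, h2⟩ := hre ((Complex.I : ℂ) • v) (fun k hk => by rw [map_smul, hfix k hk])
    refine ⟨⟨M₁, M₂⟩, fun y hy => Complex.ext (h1 y hy) ?_⟩
    have h3 := h2 y hy
    rw [inner_smul_left, Complex.conj_I] at h3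
    simpa using h3
  obtain ⟨M, hM⟩ := hco
  -- the derivative at `y₁`
  obtain ⟨g, h, hg, hh, hev⟩ := hΘ.pot y₁ e₁ hy₁ he₁ v
  obtain ⟨f, ψ, φ, ε, hpar⟩ := exists_Par hp hF hy₁ he₁ (hreg y₁ hy₁)
  have h0 : AnalyticAt ℂ ψ 0 := hpar.an 0 (mem_ball_self hpar.pos)
  have h1 : ∀ᶠ z in 𝓝 (0 : Cm n), g (ψ z) + conj (h (ψ z)) = M := by
    refine hpar.germ0 hp hy₁ (Q := fun z => g z + conj (h z) = M) ?_
    filter_upwards [hev] with y' k1 k2
    rw [← (k1 k2).1, hM y' k2]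
  have hgψ : AnalyticAt ℂ (fun z => g (ψ z)) 0 :=
    AnalyticAt.fun_comp (by rw [hpar.ψ0]; exact hg) h0
  have hhψ : AnalyticAt ℂ (fun z => h (ψ z)) 0 :=
    AnalyticAt.fun_comp (by rw [hpar.ψ0]; exact hh) h0
  have h2 : ∀ η, fderiv ℂ (fun z => g (ψ z)) 0 η = 0 := by
    have d1 := hgψ.differentiableAt.hasFDerivAt.restrictScalars ℝ
    have d2 := hhψ.differentiableAt.hasFDerivAt.restrictScalars ℝ
    have d3 : HasFDerivAt (fun z => g (ψ z) + conj (h (ψ z)))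
        ((fderiv ℂ (fun z => g (ψ z)) 0).restrictScalars ℝ +
          (Complex.conjCLE : ℂ →L[ℝ] ℂ).comp ((fderiv ℂ (fun z => h (ψ z)) 0).restrictScalars ℝ))
        0 := d1.add ((Complex.conjCLE : ℂ →L[ℝ] ℂ).hasFDerivAt.comp (0 : Cm n) d2)
    have d4 : HasFDerivAt (fun z => g (ψ z) + conj (h (ψ z))) (0 : Cm n →L[ℝ] ℂ) 0 :=
      (hasFDerivAt_const M (0 : Cm n)).congr_of_eventuallyEq h1
    have d5 := d3.unique d4
    intro η
    have e1 := DFunLike.congr_fun d5 η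
    have e2 := DFunLike.congr_fun d5 (Complex.I • η)
    have e1' : fderiv ℂ (fun z => g (ψ z)) 0 η + conj (fderiv ℂ (fun z => h (ψ z)) 0 η) = 0 := e1
    have e2' : fderiv ℂ (fun z => g (ψ z)) 0 (Complex.I • η) +
        conj (fderiv ℂ (fun z => h (ψ z)) 0 (Complex.I • η)) = 0 := e2
    rw [map_smul, map_smul, smul_eq_mul, smul_eq_mul, map_mul, Complex.conj_I] at e2'
    have e3 : Complex.I * (fderiv ℂ (fun z => g (ψ z)) 0 η -
        conj (fderiv ℂ (fun z => h (ψ z)) 0 η)) = 0 := by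
      rw [mul_sub, ← e2']; ring
    have e4 := (mul_eq_zero.1 e3).resolve_left Complex.I_ne_zero
    have e5 : 2 * fderiv ℂ (fun z => g (ψ z)) 0 η = 0 := by
      linear_combination e1' + e4
    exact (mul_eq_zero.1 e5).resolve_left two_ne_zero
  -- conclusion
  obtain ⟨-, -, hv3⟩ := hpar.near.self_of_nhds hy₁
  rw [hpar.φ0] at hv3
  have h3 := (hev.self_of_nhds hy₁).2 ξ hξ
  have h4 : fderiv ℂ g (e₁ (p y₁)) ξ = 0 := by
    have h5 : HasFDerivAt (fun z => g (ψ z)) ((fderiv ℂ g (e₁ (p y₁))).comp (fderiv ℂ ψ 0)) 0 := by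
      refine HasFDerivAt.comp (0 : Cm n) (g := g) (f := ψ) ?_ h0.differentiableAt.hasFDerivAt
      rw [hpar.ψ0]
      exact hg.differentiableAt.hasFDerivAt
    have h6 := h2 (fderiv ℂ φ (e₁ (p y₁)) ξ)
    rw [h5.fderiv, ContinuousLinearMap.comp_apply, hv3 ξ hξ] at h6
    exact h6
  rw [h4, hξv] at h3
  exact inner_self_eq_zero.1 h3.symm

end Vale.Agent.P284.H573.GG
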