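import Vale.Agent.P284.H573.DK.Kill

/-!
# P284 (helper573), target G, module G2d: a limit field which is known at the good points only

`u₀` is the limit of the normalised displacements at the good points; the differences
`u₀ y - u₀ x` are limits of `ε_j⁻¹ (V_j - 1) ∫_x^y Θ`, which are holomorphic over the bad points.
-/

open scoped Topology ContDiff Manifold
open Filter Set Metric

set_option linter.unusedSectionVars false

noncomputable section

namespace Vale.Agent.P284.H573.GG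

open Vale.Agent.P272.K Vale.Agent.P284.H212 Vale.Agent.P284.H573.DK Vale.Agent.P299.H720
open Vale.Agent.P281.H64.Thin (IsThinSet)

variable {d : ℕ} {M : Type} [TopologicalSpace M] [T2Space M] [ChartedSpace (Cm d) M]
  [IsManifold 𝓘(ℂ, Cm d) ω M]
  {W : Type} [NormedAddCommGroup W] [InnerProductSpace ℂ W] [CompleteSpace W]
variable {Fp : M → M → W} {G : Set M} {ι : Type*} {V : ι → W →ₗᵢ[ℂ] W}

lemma opn (h : IsThinSet (Cm d) Gᶜ) : IsOpen G := by
  have := h.1.isOpen_compl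
  rwa [compl_compl] at this

lemma freq (h : IsThinSet (Cm d) Gᶜ) (x : M) : ∃ᶠ y in 𝓝 x, y ∈ G := by
  have := Vale.Agent.P281.H383.Gen.dense_compl_thin h
  rw [compl_compl] at this
  exact mem_closure_iff_frequently.1 (this x)

/-- bounds over the bad points -/
theorem circ_step' (hP : Prim d Fp) (hT : IsThinSet (Cm d) Gᶜ) {l : Filter ι} {x : M} {c : ι → W}
    {τ : ι → ℝ} (hτ : ∀ j, 0 ≤ τ j)
    (hb : ∀ᶠ y in 𝓝 x, y ∈ G → BddAt (disp Fp V x c) τ l y) :
    BddAt (disp Fp V x c) τ l x := by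
  obtain ⟨g, hg, hne, hs⟩ := thin_chart hT x
  set e := chartAt (Cm d) x
  have he : e ∈ atlas (Cm d) M := chart_mem_atlas _ _
  have hx : x ∈ e.source := mem_chart_source _ _
  have hcs : Tendsto e.symm (𝓝 (e x)) (𝓝 x) := by
    have := e.continuousAt_symm (e.map_source hx)
    rwa [ContinuousAt, e.left_inv hx] at this
  have h1 : ∀ᶠ z in 𝓝 (e x), AnalyticAt ℂ (fun z => Fp x (e.symm z)) z :=
    ((hol_iff he hx).1 (hP.hol x)).eventually_analyticAt
  have h2 := hcs.eventually (hb.and hs)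
  obtain ⟨ρ, hρ, hρ'⟩ := Metric.eventually_nhds_iff_ball.1
    (h1.and (h2.and (e.open_target.mem_nhds (e.map_source hx))))
  have key := circ (D := fun z j => disp Fp V x c (e.symm z) j) (l := l) hτ hρ (fun j z hz => by
    have h3 := (hρ' z hz).1.differentiableAt
    have h4 : DifferentiableAt ℂ (fun z => V j (Fp x (e.symm z))) z :=
      ((V j).toContinuousLinearMap.differentiableAt).comp z h3
    exact (h4.add_const _).sub h3) hg hne (fun z hz hz0 => by
    obtain ⟨-, ⟨h3, h4⟩, h5⟩ := hρ' z hz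
    rw [e.right_inv h5] at h4
    have hG : e.symm z ∈ G := by
      by_contra hcon
      exact hz0 (h4 hcon)
    obtain ⟨A, N, hN, h6⟩ := h3 hG
    refine ⟨A, e.symm ⁻¹' N, (e.continuousAt_symm h5) hN, ?_⟩
    filter_upwards [h6] with j hj w hw
    exact hj _ hw)
  obtain ⟨A, N, hN, h6⟩ := key
  refine ⟨A, e.source ∩ e ⁻¹' N, inter_mem (e.open_source.mem_nhds hx) (e.continuousAt hx hN), ?_⟩
  filter_upwards [h6] with j hj y hy
  have := hj _ hy.2
  rwa [e.left_inv hy.1] at this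

variable {𝒰 : Ultrafilter ι}

/-- the normalised limit at an arbitrary point -/
theorem lim_all' (hP : Prim d Fp) (hT : IsThinSet (Cm d) Gᶜ) {x : M} {c : ι → W} {τ : ι → ℝ}
    (hb : BddAt (disp Fp V x c) τ (𝒰 : Filter ι) x) (hτ0 : ∀ᶠ j in (𝒰 : Filter ι), 0 < τ j)
    (hl : ∀ᶠ y in 𝓝 x, y ∈ G → ∃ w, Tendsto (fun j => (((τ j)⁻¹ : ℝ) : ℂ) •
      disp Fp V x c y j) 𝒰 (𝓝 w)) :
    ∃ u : M → W, Hol d u x ∧ ∀ᶠ y in 𝓝 x, Tendsto (fun j => (((τ j)⁻¹ : ℝ) : ℂ) •
      disp Fp V x c y j) 𝒰 (𝓝 (u y)) := by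
  set e := chartAt (Cm d) x
  have he : e ∈ atlas (Cm d) M := chart_mem_atlas _ _
  have hx : x ∈ e.source := mem_chart_source _ _
  have hcs : Tendsto e.symm (𝓝 (e x)) (𝓝 x) := by
    have := e.continuousAt_symm (e.map_source hx)
    rwa [ContinuousAt, e.left_inv hx] at this
  obtain ⟨A, N, hN, hA⟩ := hb
  have h1 : ∀ᶠ z in 𝓝 (e x), AnalyticAt ℂ (fun z => Fp x (e.symm z)) z :=
    ((hol_iff he hx).1 (hP.hol x)).eventually_analyticAt
  have h2 := hcs.eventually (hl.and (show ∀ᶠ y in 𝓝 x, y ∈ N from hN))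
  obtain ⟨ρ, hρ, hρ'⟩ := Metric.eventually_nhds_iff_ball.1
    (h1.and (h2.and (e.open_target.mem_nhds (e.map_source hx))))
  set f : ι → Cm d → W := fun j z => (((τ j)⁻¹ : ℝ) : ℂ) • disp Fp V x c (e.symm z) j with hf
  have hfd : ∀ j, DifferentiableOn ℂ (f j) (ball (e x) ρ) := fun j z hz => by
    have h3 := (hρ' z hz).1.differentiableAt
    have h4 : DifferentiableAt ℂ (fun z => V j (Fp x (e.symm z))) z :=
      ((V j).toContinuousLinearMap.differentiableAt).comp z h3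
    exact (((h4.add_const _).sub h3).const_smul (((τ j)⁻¹ : ℝ) : ℂ)).differentiableWithinAt
  have hfb : ∀ᶠ j in (𝒰 : Filter ι), ∀ z ∈ ball (e x) ρ, ‖f j z‖ ≤ A := by
    filter_upwards [hA, hτ0] with j hj h0 z hz
    have h3 := hj _ (hρ' z hz).2.1.2
    simp only [hf]
    rw [norm_smul, Complex.norm_real, Real.norm_of_nonneg (by positivity), inv_mul_le_iff₀ h0,
      mul_comm]
    exact h3
  have hLB : LocBdd (𝒰 : Filter ι) f (ball (e x) ρ) := by
    intro z hz
    obtain ⟨s, hs, hsz⟩ := Metric.isOpen_iff.1 isOpen_ball z hz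
    refine ⟨s, hs, A, ?_⟩
    filter_upwards [hfb] with j hj
    exact ⟨(hfd j).mono hsz, fun y hy => hj y (hsz hy)⟩
  have hρ4 : 0 < ρ / 4 := by positivity
  have hsub4 : ball (e x) (ρ / 4) ⊆ ball (e x) ρ := ball_subset_ball (by linarith)
  -- pointwise convergence
  have hpt : ∀ z ∈ ball (e x) (ρ / 4), ∃ w, Tendsto (fun j => f j z) 𝒰 (𝓝 w) := by
    intro z hz
    have hcau : Cauchy (map (fun j => f j z) (𝒰 : Filter ι)) := by
      rw [Metric.cauchy_iff]
      refine ⟨inferInstance, fun ε hε => ?_⟩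
      have hz' := hρ' z (hsub4 hz)
      -- a good point near `z`
      set η : ℝ := ε * ρ / (16 * (|A| + 1)) with hη
      have hη0 : 0 < η := by positivity
      have h3 : e.source ∩ e ⁻¹' (ball z η ∩ ball (e x) (ρ / 4)) ∈ 𝓝 (e.symm z) := by
        refine inter_mem (e.open_source.mem_nhds (e.map_target hz'.2.2))
          (e.continuousAt (e.map_target hz'.2.2) ?_)
        rw [e.right_inv hz'.2.2]
        exact inter_mem (ball_mem_nhds _ hη0) (isOpen_ball.mem_nhds hz)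
      obtain ⟨y, hyG, hy1, hy2, hy3⟩ := ((freq hT (e.symm z)).and_eventually h3).exists
      have hy4 := (hρ' (e y) (hsub4 hy3)).2.1.1
      rw [e.left_inv hy1] at hy4
      obtain ⟨w, hw⟩ := hy4 hyG
      have hw' : Tendsto (fun j => f j (e y)) 𝒰 (𝓝 w) := by
        simp only [hf]
        rw [e.left_inv hy1]
        exact hw
      have h5 : ∀ᶠ j in (𝒰 : Filter ι), dist (f j z) w < ε / 2 := by
        filter_upwards [hfb, (tendsto_iff_dist_tendsto_zero.1 hw').eventually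
          (gt_mem_nhds (show 0 < ε / 4 by positivity))] with j a1 a2
        have a3 := lip_of_bdd hρ (hfd j) a1 (y := e y) (z := z) hy3 hz
        have a4 : dist z (e y) < η := by rw [dist_comm]; exact hy2
        have a5 : 4 * A / ρ * dist z (e y) ≤ ε / 4 := by
          have a6 : 4 * A / ρ ≤ 4 * (|A| + 1) / ρ := by
            have := le_abs_self A
            gcongr
            linarith
          calc 4 * A / ρ * dist z (e y) ≤ 4 * (|A| + 1) / ρ * η := by gcongr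
            _ = ε / 4 := by rw [hη]; field_simp; norm_num
        have a7 := dist_triangle (f j z) (f j (e y)) w
        linarith
      refine ⟨_, image_mem_map h5, ?_⟩
      rintro _ ⟨j, hj, rfl⟩ _ ⟨k, hk, rfl⟩
      have hj' : dist (f j z) w < ε / 2 := hj
      have hk' : dist (f k z) w < ε / 2 := hk
      have := dist_triangle_right (f j z) (f k z) w
      linarith
    exact CompleteSpace.complete hcau
  choose! g hg using hpt
  have htlu : TendstoLocallyUniformlyOn f g 𝒰 (ball (e x) (ρ / 4)) := by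
    refine tlu_of_ptwise (fun z hz => hLB z (hsub4 hz)) fun z hz => ?_
    filter_upwards [isOpen_ball.mem_nhds hz] with w hw using hg w hw
  have hgd : DifferentiableOn ℂ g (ball (e x) (ρ / 4)) :=
    tlu_diff isOpen_ball (fun z hz => hLB z (hsub4 hz)) htlu
  have hga : AnalyticAt ℂ g (e x) :=
    Vale.Agent.P268.analyticAt_of_differentiableOn isOpen_ball hgd (mem_ball_self hρ4)
  refine ⟨fun y => g (e y), ?_, ?_⟩
  · rw [hol_iff he hx]
    refine hga.congr ?_
    filter_upwards [e.open_target.mem_nhds (e.map_source hx)] with z hz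
    show g z = g (e (e.symm z))
    rw [e.right_inv hz]
  · filter_upwards [e.open_source.mem_nhds hx, e.continuousAt hx (ball_mem_nhds _ hρ4)] with y h3 h4
    have := hg _ h4
    simp only [hf] at this
    rwa [e.left_inv h3] at this

lemma disp_split {x y z : M} {c : ι → W} (h : Fp x z = Fp x y + Fp y z) (j : ι) :
    disp Fp V x c z j = disp Fp V x c y j + disp Fp V y 0 z j := by
  simp only [disp, Pi.zero_apply, add_zero]
  rw [h, map_add]
  abel

/-- near any point the field is the restriction of a holomorphic map -/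
theorem field_ext (hP : Prim d Fp) (hT : IsThinSet (Cm d) Gᶜ) {τ : ι → ℝ} (hτ : ∀ j, 0 ≤ τ j)
    (hτ0 : ∀ᶠ j in (𝒰 : Filter ι), 0 < τ j) {u₀ : M → W}
    (hb : ∀ x ∈ G, BddAt (disp Fp V x 0) τ (𝒰 : Filter ι) x)
    (hl : ∀ x ∈ G, ∀ᶠ y in 𝓝 x, Tendsto (fun j => (((τ j)⁻¹ : ℝ) : ℂ) • disp Fp V x 0 y j) 𝒰
      (𝓝 (u₀ y - u₀ x))) (x : M) :
    ∃ h : M → W, Hol d h x ∧ ∀ᶠ y in 𝓝 x, y ∈ G → u₀ y = h y := by
  obtain ⟨N, hNA, hNo, hxN, hNc⟩ := exists_conn d (hP.coh x)
  obtain ⟨x₁, hx₁G, hx₁N⟩ := ((freq hT x).and_eventually (hNo.mem_nhds hxN)).exists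
  set c : ι → W := fun j => Fp x x₁ - V j (Fp x x₁) with hc
  have hx₁0 : ∀ j, disp Fp V x c x₁ j = 0 := by
    intro j
    simp only [disp, hc]
    abel
  have hS : IsPreconnected (N \ Gᶜ) := pre_open hNo hNc hT
  have hSo : IsOpen (N \ Gᶜ) := by
    rw [sdiff_compl]
    exact hNo.inter (opn hT)
  have hx₁S : x₁ ∈ N \ Gᶜ := ⟨hx₁N, not_not.2 hx₁G⟩
  -- bounds
  have c1 := pc_clopen (S := N \ Gᶜ) (A := {y | BddAt (disp Fp V x c) τ (𝒰 : Filter ι) y}) hS hSo
    (fun y _ hy => BddAt.ev hy) (fun y hy hf => by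
      have hyG : y ∈ G := not_not.1 hy.2
      obtain ⟨A, N', hN', hA⟩ := hb y hyG
      have hcoh := hNA hy.1
      obtain ⟨y', ⟨-, A', N'', hN'', hA'⟩, hy'N, hy'c⟩ :=
        (hf.and_eventually ((show ∀ᶠ y' in 𝓝 y, y' ∈ N' from hN').and hcoh)).exists
      refine ⟨A' + 2 * A, _, inter_mem hN' hcoh, ?_⟩
      filter_upwards [hA, hA'] with j h1 h2 z hz
      have e1 := disp_split (V := V) (c := c) hz.2 j
      have e2 := disp_split (V := V) (c := c) hy'c j
      have e3 : disp Fp V x c z j = disp Fp V x c y' j - disp Fp V y 0 y' j +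
          disp Fp V y 0 z j := by
        rw [e1, e2]; abel
      rw [e3]
      have i1 := h2 y' (mem_of_mem_nhds hN'')
      have i2 := h1 y' hy'N
      have i3 := h1 z hz.1
      calc ‖disp Fp V x c y' j - disp Fp V y 0 y' j + disp Fp V y 0 z j‖
          ≤ ‖disp Fp V x c y' j - disp Fp V y 0 y' j‖ + ‖disp Fp V y 0 z j‖ := norm_add_le _ _
        _ ≤ ‖disp Fp V x c y' j‖ + ‖disp Fp V y 0 y' j‖ + ‖disp Fp V y 0 z j‖ := by
          gcongr; exact norm_sub_le _ _
        _ ≤ (A' + 2 * A) * τ j := by linarith) ⟨x₁, hx₁S, by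
      obtain ⟨A, N', hN', hA⟩ := hb x₁ hx₁G
      refine ⟨A, _, inter_mem hN' (hNA hx₁N), ?_⟩
      filter_upwards [hA] with j h1 z hz
      rw [disp_split (V := V) (c := c) hz.2 j, hx₁0, zero_add]
      exact h1 z hz.1⟩
  -- limits
  have c2 := pc_clopen (S := N \ Gᶜ) (A := {y | Tendsto (fun j => (((τ j)⁻¹ : ℝ) : ℂ) •
      disp Fp V x c y j) 𝒰 (𝓝 (u₀ y - u₀ x₁))}) hS hSo
    (fun y hy hy2 => by
      filter_upwards [hl y (not_not.1 hy.2), hNA hy.1] with z h1 h2
      have h3 := Filter.Tendsto.add (show Tendsto _ _ _ from hy2) h1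
      have e1 : u₀ y - u₀ x₁ + (u₀ z - u₀ y) = u₀ z - u₀ x₁ := by abel
      rw [e1] at h3
      refine h3.congr fun j => ?_
      rw [disp_split (V := V) (c := c) h2 j, smul_add])
    (fun y hy hf => by
      obtain ⟨y', ⟨-, h1⟩, h2, h3⟩ := (hf.and_eventually
        ((hl y (not_not.1 hy.2)).and (hNA hy.1))).exists
      have h4 := Filter.Tendsto.sub (show Tendsto _ _ _ from h1) h2
      have e1 : u₀ y' - u₀ x₁ - (u₀ y' - u₀ y) = u₀ y - u₀ x₁ := by abel
      rw [e1] at h4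
      refine h4.congr fun j => ?_
      rw [disp_split (V := V) (c := c) h3 j, smul_add, add_sub_cancel_right])
    ⟨x₁, hx₁S, by
      show Tendsto _ _ _
      simp only [hx₁0, smul_zero, sub_self]
      exact tendsto_const_nhds⟩
  have hbx : BddAt (disp Fp V x c) τ (𝒰 : Filter ι) x := by
    refine circ_step' hP hT hτ ?_
    filter_upwards [hNo.mem_nhds hxN] with y hy hyG
    exact c1 y ⟨hy, not_not.2 hyG⟩
  have hlx : ∀ᶠ y in 𝓝 x, y ∈ G → Tendsto (fun j => (((τ j)⁻¹ : ℝ) : ℂ) •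
      disp Fp V x c y j) 𝒰 (𝓝 (u₀ y - u₀ x₁)) := by
    filter_upwards [hNo.mem_nhds hxN] with y hy hyG
    exact c2 y ⟨hy, not_not.2 hyG⟩
  obtain ⟨u, hu1, hu2⟩ := lim_all' hP hT hbx hτ0 (hlx.mono fun y hy hyG => ⟨_, hy hyG⟩)
  refine ⟨fun y => u y + u₀ x₁, hu1.add (hol_const _ _), ?_⟩
  filter_upwards [hu2, hlx] with y h1 h2 hyG
  have h3 := tendsto_nhds_unique h1 (h2 hyG)
  show u₀ y = u y + u₀ x₁
  rw [h3]
  abel

/-- **a field with invariant norm is constant** -/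
theorem const_field [ConnectedSpace M] (hP : Prim d Fp) (hT : IsThinSet (Cm d) Gᶜ) {τ₀ : ι → ℝ}
    (hτ₀0 : ∀ᶠ j in (𝒰 : Filter ι), 0 < τ₀ j) {u₀ : M → W}
    (hb₀ : ∀ x ∈ G, BddAt (disp Fp V x 0) τ₀ (𝒰 : Filter ι) x)
    (hl₀ : ∀ x ∈ G, ∀ᶠ y in 𝓝 x, Tendsto (fun j => (((τ₀ j)⁻¹ : ℝ) : ℂ) • disp Fp V x 0 y j) 𝒰
      (𝓝 (u₀ y - u₀ x)))
    {K : Type} [Group K] [MulAction K M] {K' : Set K} (hKc : ∀ k : K, Continuous fun x : M => k • x)
    (hKG : ∀ k : K, ∀ x ∈ G, k • x ∈ G) (hinv : ∀ k ∈ K', ∀ x ∈ G, ‖u₀ (k • x)‖ = ‖u₀ x‖)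
    {C : Set M} (hC : IsCompact C) (hCK : ∀ x, ∃ k ∈ K', k • x ∈ C) :
    ∃ w, ∀ x ∈ G, u₀ x = w := by
  set τ : ι → ℝ := fun j => |τ₀ j| with hτdef
  have hττ : ∀ᶠ j in (𝒰 : Filter ι), τ j = τ₀ j := hτ₀0.mono fun j hj => abs_of_pos hj
  have hτ0 : ∀ᶠ j in (𝒰 : Filter ι), 0 < τ j := by
    filter_upwards [hττ, hτ₀0] with j h1 h2
    rw [h1]; exact h2
  have hb : ∀ x ∈ G, BddAt (disp Fp V x 0) τ (𝒰 : Filter ι) x := by
    intro x hx
    obtain ⟨A, N, hN, hA⟩ := hb₀ x hx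
    refine ⟨A, N, hN, ?_⟩
    filter_upwards [hA, hττ] with j h1 h2 z hz
    rw [h2]
    exact h1 z hz
  have hl : ∀ x ∈ G, ∀ᶠ y in 𝓝 x, Tendsto (fun j => (((τ j)⁻¹ : ℝ) : ℂ) • disp Fp V x 0 y j) 𝒰
      (𝓝 (u₀ y - u₀ x)) := by
    intro x hx
    filter_upwards [hl₀ x hx] with y hy
    refine hy.congr' ?_
    filter_upwards [hττ] with j h2
    rw [h2]
  choose h hh1 hh2 using field_ext hP hT (fun j => abs_nonneg (τ₀ j)) hτ0 hb hl
  set u : M → W := fun x => h x x with hu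
  have huG : ∀ x ∈ G, u x = u₀ x := fun x hx => ((hh2 x).self_of_nhds hx).symm
  -- `u = h x` near `x`
  have hnear : ∀ x, ∀ᶠ y in 𝓝 x, u y = h x y := by
    intro x
    filter_upwards [(hh2 x).eventually_nhds, (hh1 x).cont_ev] with y h1 h2
    have h3 : ∃ᶠ z in 𝓝 y, h y z = h x z := by
      refine ((freq hT y).and_eventually ((hh2 y).and h1)).mono ?_
      rintro z ⟨hzG, a1, a2⟩
      rw [← a1 hzG, ← a2 hzG]
    have h4 : IsClosed {z : W × W | z.1 = z.2} := isClosed_diagonal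
    have h5 : Tendsto (fun z => (h y z, h x z)) (𝓝 y) (𝓝 (h y y, h x y)) :=
      ((hh1 y).cont.tendsto).prodMk_nhds h2.tendsto
    exact h4.mem_of_frequently_of_tendsto h3 h5
  have huH : ∀ x, Hol d u x := fun x => (hh1 x).congr (hnear x)
  have huc : Continuous u := continuous_iff_continuousAt.2 fun x => (huH x).cont
  have hinv' : ∀ k ∈ K', ∀ x, ‖u (k • x)‖ = ‖u x‖ := by
    intro k hk x
    have h4 : IsClosed {z : ℝ × ℝ | z.1 = z.2} := isClosed_diagonal
    have h5 : Tendsto (fun z => (‖u (k • z)‖, ‖u z‖)) (𝓝 x) (𝓝 (‖u (k • x)‖, ‖u x‖)) :=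
      (((huc.comp (hKc k)).norm.prodMk huc.norm).tendsto x)
    refine h4.mem_of_frequently_of_tendsto ?_ h5
    refine (freq hT x).mono fun z hz => ?_
    show ‖u (k • z)‖ = ‖u z‖
    rw [huG _ (hKG k z hz), huG _ hz]
    exact hinv k hk z hz
  have hsc : StrictConvexSpace ℝ W := strictConvex W
  obtain ⟨x₀, hx₀⟩ : G.Nonempty := by
    obtain ⟨x⟩ : Nonempty M := inferInstance
    obtain ⟨y, hy⟩ := (freq hT x).exists
    exact ⟨y, hy⟩
  refine ⟨u x₀, fun x hx => ?_⟩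
  rw [← huG x hx]
  exact const_of_inv huH hinv' hC hCK x x₀

end Vale.Agent.P284.H573.GG
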