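import Vale.Agent.P284.H573.G.Fib

/-!
# P284 (helper573), target G: a leaf chart at `z` is a leaf chart at the points near `z`
-/

open scoped Manifold ContDiff Topology InnerProductSpace ComplexConjugate
open Filter Set Metric

noncomputable section

set_option linter.unusedSectionVars false

namespace Vale.Agent.P284.H573.GG

open Vale.Agent.P272.K Vale.Agent.P284.H894.G Vale.Agent.P284.H894.V Vale.Agent.P284.H894.W
  Vale.Agent.P284.H213.Grp Vale.Agent.P284.H619 Vale.Agent.P284.H10 Vale.Agent.P284.H573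
  Vale.Agent.P284.H625 Vale.Agent.P284.H378 Vale.Agent.P284.H212 Vale.Agent.P284.H395

lemma ker_ev {q r : ℕ} {V : Type*} [NormedAddCommGroup V] [NormedSpace ℂ V] [CompleteSpace V]
    {f : Cm (q + r) → V} {x₀ : Cm (q + r)} (hf : AnalyticAt ℂ f x₀)
    (h : ∀ ζ : Cm (q + r), tq ζ = 0 → fderiv ℂ f x₀ ζ = 0 → ζ = 0) :
    ∀ᶠ x in 𝓝 x₀, ∀ ζ : Cm (q + r), tq ζ = 0 → fderiv ℂ f x ζ = 0 → ζ = 0 := by
  have h1 : ContinuousAt (fun x => (tqc q r).prod (fderiv ℂ f x)) x₀ := by
    have h2 : ContinuousAt (fun x => fderiv ℂ f x) x₀ := hf.fderiv.continuousAt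
    have h3 : Continuous fun L : Cm (q + r) →L[ℂ] V => (tqc q r).prod L := by
      have : (fun L : Cm (q + r) →L[ℂ] V => (tqc q r).prod L) =
          fun L => (ContinuousLinearMap.inl ℂ (Cm q) V).comp (tqc q r) +
            (ContinuousLinearMap.inr ℂ (Cm q) V).comp L := by
        funext L
        ext1 ζ
        simp
      rw [this]
      exact continuous_const.add (continuous_const.clm_comp continuous_id)
    exact h3.continuousAt.comp h2
  have h2 : Function.Injective ((tqc q r).prod (fderiv ℂ f x₀)) := by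
    rw [injective_iff_map_eq_zero]
    intro ζ hζ
    exact h ζ (Prod.ext_iff.1 hζ).1 (Prod.ext_iff.1 hζ).2
  filter_upwards [h1.eventually (ContinuousLinearMap.isOpen_injective.mem_nhds h2)] with x hx ζ a1 a2
  have hx' : Function.Injective ((tqc q r).prod (fderiv ℂ f x)) := hx
  rw [injective_iff_map_eq_zero] at hx'
  exact hx' ζ (Prod.ext a1 a2)

section
variable {n q r k s m : ℕ} {X E Γ W H : Type} [TopologicalSpace X] [ChartedSpace (Cm n) X]
  [TopologicalSpace E] [Group Γ] [MulAction Γ E]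
  [NormedAddCommGroup W] [InnerProductSpace ℂ W] [CompleteSpace W] [NormedAddCommGroup H]
  [InnerProductSpace ℂ H] [CompleteSpace H] {p : E → X} {F : E → Cm q}
  {v : E → Chart n X → (Fin (q + r) → Cm n) → H}
  {U : Γ → (H →ₗᵢ[ℂ] H)} {π : Γ →* (W ≃ₗᵢ[ℂ] W)} {Θ : E → Chart n X → (Cm n →L[ℂ] W)}
  {N : Cm k →L[ℂ] Cm q} {z : E} {e : Chart n X} {b : Cm n → Cm (q + r)}
  {F0 : Cm (q + r) → W} {β : Cm (q + r) → Cm s} {γ : Cm s → H} {τ : Cm s → Cm q}

theorem surj_ev {n' m' : ℕ} {f : Cm n' → Cm m'} {x₀ : Cm n'} (hf : AnalyticAt ℂ f x₀)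
    (h : Function.Surjective (fderiv ℂ f x₀)) :
    ∀ᶠ x in 𝓝 x₀, Function.Surjective (fderiv ℂ f x) := by
  have h2 : ContinuousAt (fun x => fderiv ℂ f x) x₀ := hf.fderiv.continuousAt
  exact h2.eventually (surj_isOpen.mem_nhds h)

theorem lc_near (hp : IsCoveringMap p) (hL : LC p F m v U π Θ N z e b F0 β γ τ) :
    ∀ᶠ z' in 𝓝 z, LC p F m v U π Θ N z' e b F0 β γ τ := by
  obtain ⟨CP, -⟩ := exists_pc hL.γan hL.imm one_pos
  have hep : Tendsto (fun y' : E => e (p y')) (𝓝 z) (𝓝 (e (p z))) := (map_ep hp hL.mem).le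
  have hbp : Tendsto (fun y' : E => b (e (p y'))) (𝓝 z) (𝓝 (b (e (p z)))) :=
    hL.ban.continuousAt.tendsto.comp hep
  have hβp : Tendsto (fun y' : E => β (b (e (p y')))) (𝓝 z) (𝓝 (β (b (e (p z))))) :=
    hL.βan.continuousAt.tendsto.comp hbp
  obtain ⟨ρ, hρ, hsheet⟩ := hL.sheet
  have c1 := hep.eventually (hL.ban.eventually_analyticAt.and (surj_ev hL.ban hL.bsurj))
  have c2 := hbp.eventually (hL.F0an.eventually_analyticAt.and ((ker_ev hL.F0an hL.F0imm).and
    (hL.βan.eventually_analyticAt.and ((surj_ev hL.βan hL.βsurj).and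
      ((ker_ev hL.βan hL.trans).and (hL.leaf.eventually_nhds.and
        (ball_mem_nhds _ (half_pos hρ))))))))
  have c3 := hβp.eventually (hL.γan.eventually_analyticAt.and
    (hL.τan.eventually_analyticAt.and (ball_mem_nhds _ CP.r₁_pos)))
  filter_upwards [at_ev hp hL.mem, c1, c2, c3, hL.t_eq.eventually_nhds, hL.pot.eventually_nhds,
    hL.v_eq.eventually_nhds] with z' a1 ⟨b1, b2⟩ ⟨d1, d2, d3, d4, d5, d6, d7⟩ ⟨f1, f2, f3⟩ a2 a3 a4
  have hsub : ball (b (e (p z'))) (ρ / 2) ⊆ ball (b (e (p z))) ρ := by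
    intro y hy
    have h1 : dist (b (e (p z'))) (b (e (p z))) < ρ / 2 := d7
    rw [mem_ball] at *
    have := dist_triangle y (b (e (p z'))) (b (e (p z)))
    linarith
  exact
    { mem := a1
      ban := b1
      bsurj := b2
      t_eq := a2
      F0an := d1
      pot := a3
      F0imm := d2
      βan := d3
      βsurj := d4
      trans := d5
      γan := f1
      imm := CP.immAt f3
      v_eq := a4
      τan := f2
      leaf := d6
      sheet := ⟨ρ / 2, half_pos hρ, fun g x₁ hx₁ ψ h1 h2 h3 h4 =>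
        hsheet g x₁ (hsub hx₁) ψ h1 (hsub h2) h3 h4⟩ }

end

end Vale.Agent.P284.H573.GG
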