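import Vale.Agent.P284.H378.SlideAt

/-!
# P284 (helper573), target G, module G2d: the lifts `ψ` of the sheet maps, with estimates

After helper378's `exists_psi`.
-/

open scoped Manifold ContDiff Topology InnerProductSpace ComplexConjugate
open Filter Set Metric

noncomputable section

namespace Vale.Agent.P284.H573.GG

open Vale.Agent.P272.K Vale.Agent.P284.H573 Vale.Agent.P284.H625 Vale.Agent.P284.H378

variable {q r k s : ℕ} {W H : Type} [NormedAddCommGroup W] [InnerProductSpace ℂ W]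
  [NormedAddCommGroup H] [InnerProductSpace ℂ H] {Γ : Type} [Group Γ]

/-- the coordinates `I` of the slice near `x₀` -/
structure Sli (P : Cm q →L[ℂ] Cm k) (x₀ : Cm (q + r)) (β : Cm (q + r) → Cm s)
    (F0 : Cm (q + r) → W) (I : Cm s × Cm k → Cm (q + r)) (R KG : ℝ) : Prop where
  R_pos : 0 < R
  KG_nn : 0 ≤ KG
  an : ∀ z ∈ ball (β x₀, P (tq x₀)) R, AnalyticAt ℂ I z ∧ AnalyticAt ℂ F0 (I z) ∧ β (I z) = z.1 ∧
    P (tq (I z)) = z.2
  lip : ∀ z ∈ ball (β x₀, P (tq x₀)) R, ∀ z' ∈ ball (β x₀, P (tq x₀)) R,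
    ‖F0 (I z) - F0 (I z')‖ ≤ KG * ‖z - z'‖
  eq : ∀ᶠ x in 𝓝 x₀, I (β x, P (tq x)) = x

/-- A near identity sheet map lifts to a near identity map of the slice which preserves `Θ`. -/
theorem exists_psi' [CompleteSpace W] (hdim : q + r = s + k) {N : Cm k →L[ℂ] Cm q}
    {P : Cm q →L[ℂ] Cm k}
    (hP : ∀ x, P (N x) = x) {x₀ : Cm (q + r)} {β : Cm (q + r) → Cm s} {τ : Cm s → Cm q}
    (hβ : AnalyticAt ℂ β x₀) (htr : ∀ ζ : Cm (q + r), tq ζ = 0 → fderiv ℂ β x₀ ζ = 0 → ζ = 0)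
    (hτ : AnalyticAt ℂ τ (β x₀))
    (hleaf : ∀ᶠ x in 𝓝 x₀, tq x - τ (β x) ∈ LinearMap.range (N : Cm k →ₗ[ℂ] Cm q))
    {U : Γ → (H →ₗᵢ[ℂ] H)} {π : Γ →* (W ≃ₗᵢ[ℂ] W)} {c : Γ → Cm q} {γ : Cm s → H}
    {F0 : Cm (q + r) → W} (hF0 : AnalyticAt ℂ F0 x₀)
    (hsheet : ∃ ρ > 0, ∀ (g : Γ), ∀ x₁ ∈ ball x₀ ρ, ∀ ψ : Cm (q + r) → Cm (q + r),
      AnalyticAt ℂ ψ x₁ → ψ x₁ ∈ ball x₀ ρ →
      (∃ c : Cm q, ∀ᶠ x in 𝓝 x₁, tq (ψ x) = tq x + c) →
      (∀ᶠ x in 𝓝 x₁, ∃ a : ℂ, U g (γ (β x)) = a • γ (β (ψ x))) →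
      ∀ᶠ x in 𝓝 x₁, ∀ ζ : Cm (q + r), tq ζ = 0 →
        fderiv ℂ (fun x => F0 (ψ x)) x ζ = π g (fderiv ℂ F0 x ζ)) :
    ∃ (I : Cm s × Cm k → Cm (q + r)) (R KG : ℝ), Sli P x₀ β F0 I R KG ∧ ∀ ρ > 0,
    ∃ ρ' > 0, (∀ x ∈ ball x₀ ρ', β x ∈ ball (β x₀) ρ ∧ (β x, P (tq x)) ∈ ball (β x₀, P (tq x₀)) R ∧
        I (β x, P (tq x)) = x) ∧
      ∃ δ > 0, ∀ (g : Γ) (φ : Cm s → Cm s), c g = 0 → NI U c N γ τ (β x₀) ρ g φ →
      (∀ x ∈ ball (β x₀) ρ, ‖φ x - x‖ < δ) →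
      (∀ x ∈ ball x₀ ρ', (φ (β x), P (tq x)) ∈ ball (β x₀, P (tq x₀)) R ∧
        tq (I (φ (β x), P (tq x))) = tq x) ∧
      ∃ C : W, ∀ x ∈ ball x₀ ρ', tq x = tq x₀ →
        π g (F0 x) + C = F0 (I (φ (β x), P (tq x))) := by
  obtain ⟨I, hI, hI1, hI2⟩ := exists_coord hdim hP hβ htr hτ hleaf
  obtain ⟨ρs, hρs, hsheet⟩ := hsheet
  have hNP : ∀ y ∈ LinearMap.range (N : Cm k →ₗ[ℂ] Cm q), N (P y) = y := by
    rintro _ ⟨x, rfl⟩
    simp only [ContinuousLinearMap.coe_coe, hP]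
  set z₀ : Cm s × Cm k := (β x₀, P (tq x₀)) with hz₀
  have hI0 : I z₀ = x₀ := hI1.self_of_nhds
  have hIc : Tendsto I (𝓝 z₀) (𝓝 x₀) := by
    have := hI.continuousAt.tendsto
    rwa [hI0] at this
  have hFI : AnalyticAt ℂ (fun z => F0 (I z)) z₀ := by
    refine AnalyticAt.fun_comp ?_ hI
    rw [hI0]; exact hF0
  obtain ⟨KG, sI, hsI, hlip⟩ := hFI.hasStrictFDerivAt.exists_lipschitzOnWith
  have e1 : ∀ᶠ z in 𝓝 z₀, AnalyticAt ℂ I z ∧ (β (I z) = z.1 ∧ P (tq (I z)) = z.2) ∧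
      tq (I z) - τ (β (I z)) ∈ LinearMap.range (N : Cm k →ₗ[ℂ] Cm q) ∧
      AnalyticAt ℂ F0 (I z) ∧ I z ∈ ball x₀ ρs ∧ z ∈ sI :=
    hI.eventually_analyticAt.and (hI2.and ((hIc.eventually hleaf).and
      ((hIc.eventually hF0.eventually_analyticAt).and
        ((hIc.eventually (ball_mem_nhds x₀ hρs)).and hsI))))
  obtain ⟨R1, hR1, he1⟩ := Metric.eventually_nhds_iff_ball.1 e1
  refine ⟨I, R1, KG, ⟨hR1, KG.2, fun z hz => ⟨(he1 z hz).1, (he1 z hz).2.2.2.1, (he1 z hz).2.1.1,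
    (he1 z hz).2.1.2⟩, fun z hz z' hz' => ?_, hI1⟩, fun ρ hρ => ?_⟩
  · exact hlip.norm_sub_le (he1 _ hz).2.2.2.2.2 (he1 _ hz').2.2.2.2.2
  have hβc : Tendsto β (𝓝 x₀) (𝓝 (β x₀)) := hβ.continuousAt.tendsto
  have htc : Tendsto (fun x : Cm (q + r) => P (tq x)) (𝓝 x₀) (𝓝 (P (tq x₀))) :=
    (P.continuous.comp (tqc q r).continuous).tendsto x₀
  have e2 : ∀ᶠ x in 𝓝 x₀, β x ∈ ball (β x₀) (min ρ (R1 / 2)) ∧
      P (tq x) ∈ ball (P (tq x₀)) R1 ∧ I (β x, P (tq x)) = x ∧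
      tq x - τ (β x) ∈ LinearMap.range (N : Cm k →ₗ[ℂ] Cm q) ∧ AnalyticAt ℂ β x ∧
      AnalyticAt ℂ F0 x ∧ x ∈ ball x₀ ρs :=
    (hβc.eventually (ball_mem_nhds _ (by positivity))).and
      ((htc.eventually (ball_mem_nhds _ hR1)).and (hI1.and (hleaf.and
        (hβ.eventually_analyticAt.and (hF0.eventually_analyticAt.and (ball_mem_nhds _ hρs))))))
  obtain ⟨R2, hR2, he2⟩ := Metric.eventually_nhds_iff_ball.1 e2
  have hz' : ∀ x ∈ ball x₀ R2, (β x, P (tq x)) ∈ ball z₀ R1 := by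
    intro x hx
    obtain ⟨a1, a2, -⟩ := he2 x hx
    rw [← ball_prod_same, mem_prod]
    exact ⟨ball_subset_ball ((min_le_right _ _).trans (by linarith)) a1, a2⟩
  refine ⟨R2, hR2, fun x hx => ⟨ball_subset_ball (min_le_left _ _) (he2 x hx).1, hz' x hx,
    (he2 x hx).2.2.1⟩, R1 / 2, by positivity, fun g φ hcg hφ hφδ => ?_⟩
  set ψ : Cm (q + r) → Cm (q + r) := fun x => I (φ (β x), P (tq x)) with hψ
  have hz : ∀ x ∈ ball x₀ R2, (φ (β x), P (tq x)) ∈ ball z₀ R1 := by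
    intro x hx
    obtain ⟨a1, a2, -⟩ := he2 x hx
    rw [← ball_prod_same, mem_prod]
    refine ⟨?_, a2⟩
    have a3 : β x ∈ ball (β x₀) ρ := ball_subset_ball (min_le_left _ _) a1
    have a4 : β x ∈ ball (β x₀) (R1 / 2) := ball_subset_ball (min_le_right _ _) a1
    have a5 := hφδ _ a3
    rw [mem_ball] at *
    rw [← dist_eq_norm] at a5
    have := dist_triangle (φ (β x)) (β x) (β x₀)
    linarith
  have hφan : ∀ x ∈ ball (β x₀) ρ, AnalyticAt ℂ φ x := fun x hx =>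
    Vale.Agent.P268.analyticAt_of_differentiableOn isOpen_ball hφ.1 hx
  have hψan : ∀ x ∈ ball x₀ R2, AnalyticAt ℂ ψ x := by
    intro x hx
    obtain ⟨a1, a2, a3, a4, a5, -⟩ := he2 x hx
    have b1 : AnalyticAt ℂ (fun x => φ (β x)) x :=
      AnalyticAt.fun_comp (hφan _ (ball_subset_ball (min_le_left _ _) a1)) a5
    have b2 : AnalyticAt ℂ (fun x : Cm (q + r) => P (tq x)) x := (P ∘L tqc q r).analyticAt x
    exact AnalyticAt.fun_comp (he1 _ (hz x hx)).1 (b1.prod b2)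
  have htψ : ∀ x ∈ ball x₀ R2, tq (ψ x) = tq x := by
    intro x hx
    obtain ⟨a1, a2, a3, a4, a5, -⟩ := he2 x hx
    obtain ⟨b1, ⟨b2, b3⟩, b4, -⟩ := he1 _ (hz x hx)
    have b5 := (hφ.2 _ (ball_subset_ball (min_le_left _ _) a1)).2
    change β (ψ x) = φ (β x) at b2
    change P (tq (ψ x)) = P (tq x) at b3
    change tq (ψ x) - τ (β (ψ x)) ∈ _ at b4
    rw [b2] at b4
    rw [hcg, sub_zero] at b5
    have b6 := Submodule.add_mem _ (Submodule.sub_mem _ b4 a4) b5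
    have b7 : tq (ψ x) - τ (φ (β x)) - (tq x - τ (β x)) + (τ (φ (β x)) - τ (β x)) =
        tq (ψ x) - tq x := by abel
    rw [b7] at b6
    have b8 := hNP _ b6
    rw [map_sub, b3, sub_self, map_zero] at b8
    exact (sub_eq_zero.1 b8.symm)
  have hfd : ∀ x ∈ ball x₀ R2, ∀ ζ : Cm (q + r), tq ζ = 0 →
      fderiv ℂ (fun x => F0 (ψ x)) x ζ = π g (fderiv ℂ F0 x ζ) := by
    intro x hx
    obtain ⟨a1, a2, a3, a4, a5, a6, a7⟩ := he2 x hx
    obtain ⟨b1, ⟨b2, b3⟩, b4, b5, b6, -⟩ := he1 _ (hz x hx)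
    refine (hsheet g x a7 ψ (hψan x hx) b6 ⟨0, ?_⟩ ?_).self_of_nhds
    · filter_upwards [isOpen_ball.mem_nhds hx] with x' hx'
      rw [add_zero]
      exact htψ x' hx'
    · filter_upwards [isOpen_ball.mem_nhds hx] with x' hx'
      obtain ⟨a, ha⟩ := (hφ.2 _ (ball_subset_ball (min_le_left _ _) (he2 x' hx').1)).1
      refine ⟨a, ?_⟩
      have : β (ψ x') = φ (β x') := (he1 _ (hz x' hx')).2.1.1
      rw [this]
      exact ha
  refine ⟨fun x hx => ⟨hz x hx, htψ x hx⟩, F0 (ψ x₀) - π g (F0 x₀), fun x hx htx => ?_⟩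
  -- constancy along the segment
  set d := x - x₀ with hd
  have hdv : tq d = 0 := by
    have : tqc q r d = tqc q r x - tqc q r x₀ := map_sub _ _ _
    rw [tqc_apply, tqc_apply, tqc_apply, htx, sub_self] at this
    exact this
  have hseg : ∀ s ∈ Icc (0 : ℝ) 1, x₀ + s • d ∈ ball x₀ R2 := fun s hs =>
    (convex_ball x₀ R2).add_smul_sub_mem (mem_ball_self hR2) hx hs
  have hder : ∀ s ∈ Icc (0 : ℝ) 1,
      HasDerivAt (fun s : ℝ => F0 (ψ (x₀ + s • d)) - π g (F0 (x₀ + s • d))) 0 s := by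
    intro s hs
    have hy := hseg s hs
    obtain ⟨a1, a2, a3, a4, a5, a6, a7⟩ := he2 _ hy
    have b1 : HasFDerivAt (fun x => F0 (ψ x)) (fderiv ℂ (fun x => F0 (ψ x)) (x₀ + s • d))
        (x₀ + s • d) := by
      have : AnalyticAt ℂ (fun x => F0 (ψ x)) (x₀ + s • d) :=
        AnalyticAt.fun_comp (he1 _ (hz _ hy)).2.2.2.1 (hψan _ hy)
      exact this.differentiableAt.hasFDerivAt
    have b2 : HasFDerivAt (fun x => π g (F0 x))
        (((π g).toContinuousLinearEquiv : W →L[ℂ] W) ∘L fderiv ℂ F0 (x₀ + s • d))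
        (x₀ + s • d) :=
      ((π g).toContinuousLinearEquiv : W →L[ℂ] W).hasFDerivAt.comp _
        a6.differentiableAt.hasFDerivAt
    have b3 := (b1.sub b2).restrictScalars ℝ
    have b4 : HasDerivAt (fun s : ℝ => x₀ + s • d) d s := by
      simpa using ((hasDerivAt_id s).smul_const d).const_add x₀
    have b5 := b3.comp_hasDerivAt s b4
    have b6 : ((fderiv ℂ (fun x => F0 (ψ x)) (x₀ + s • d) -
        ((π g).toContinuousLinearEquiv : W →L[ℂ] W) ∘L fderiv ℂ F0 (x₀ + s • d)).restrictScalars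
        ℝ) d = 0 := by
      rw [ContinuousLinearMap.coe_restrictScalars', sub_apply, hfd _ hy d hdv]
      simp
    rw [b6] at b5
    exact b5
  have hc := constant_of_has_deriv_right_zero
    (f := fun s : ℝ => F0 (ψ (x₀ + s • d)) - π g (F0 (x₀ + s • d))) (a := 0) (b := 1)
    (fun s hs => (hder s hs).continuousAt.continuousWithinAt)
    (fun s hs => (hder s ⟨hs.1, hs.2.le⟩).hasDerivWithinAt)
  have h1 := hc 1 ⟨zero_le_one, le_refl 1⟩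
  simp only [one_smul, zero_smul, add_zero, hd, add_sub_cancel] at h1
  rw [← h1]
  show π g (F0 x) + (F0 (ψ x) - π g (F0 x)) = F0 (ψ x)
  abel

/-- the displacements tend to `0` -/
theorem lim_zero' {V : Type*} [NormedAddCommGroup V] [NormedSpace ℂ V]
    {ι : Type*} {l : Filter ι} {ε : ι → ℝ} (h0 : ∀ᶠ j in l, 0 < ε j)
    (ht : Tendsto ε l (𝓝 0)) {ζ : V} {y : ι → V}
    (hy : Tendsto (fun j => (((ε j)⁻¹ : ℝ) : ℂ) • y j) l (𝓝 ζ)) : Tendsto y l (𝓝 0) := by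
  have h1 : Tendsto (fun j => (ε j : ℂ)) l (𝓝 0) := by
    have := (Complex.continuous_ofReal.tendsto 0).comp ht
    rwa [Complex.ofReal_zero] at this
  have h2 := h1.smul hy
  rw [zero_smul] at h2
  refine h2.congr' ?_
  filter_upwards [h0] with j hj
  rw [smul_smul, ← Complex.ofReal_mul, mul_inv_cancel₀ hj.ne', Complex.ofReal_one, one_smul]

/-- directional limits -/
theorem lim_dir' {V V' : Type*} [NormedAddCommGroup V] [NormedSpace ℂ V] [NormedAddCommGroup V']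
    [NormedSpace ℂ V'] {ι : Type*} {l : Filter ι} {ε : ι → ℝ} (h0 : ∀ᶠ j in l, 0 < ε j)
    (ht : Tendsto ε l (𝓝 0)) {f : V → V'} {f' : V →L[ℂ] V'} {x ζ : V} (hf : HasFDerivAt f f' x)
    {y : ι → V} (hy : Tendsto (fun j => (((ε j)⁻¹ : ℝ) : ℂ) • (y j - x)) l (𝓝 ζ)) :
    Tendsto (fun j => (((ε j)⁻¹ : ℝ) : ℂ) • (f (y j) - f x)) l (𝓝 (f' ζ)) := by
  have h2 := (hasFDerivWithinAt_univ.2 hf).lim (c := fun j => (((ε j)⁻¹ : ℝ) : ℂ))
    (d := fun j => y j - x) (v := ζ) (lim_zero' h0 ht hy)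
    (Eventually.of_forall fun _ => mem_univ _) hy
  simpa using h2

end Vale.Agent.P284.H573.GG
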