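import Vale.Agent.P284.H573.G.Fib
import Vale.Agent.P284.H573.G.Fix
import Vale.Agent.P284.H451.G.S

/-!
# P284 (helper573), target G, module G2d: the limit displacements vanish on the generic fibres
-/

open scoped Manifold ContDiff Topology InnerProductSpace ComplexConjugate
open Filter Set Metric

noncomputable section

set_option linter.unusedSectionVars false
set_option linter.style.haveILetI false

namespace Vale.Agent.P284.H573.GG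

open Vale.Agent.P272.K Vale.Agent.P284.H894.G Vale.Agent.P284.H894.V Vale.Agent.P284.H894.W
  Vale.Agent.P284.H213.Grp Vale.Agent.P284.H619 Vale.Agent.P284.H10 Vale.Agent.P284.H573
  Vale.Agent.P284.H625 Vale.Agent.P284.H378 Vale.Agent.P284.H212 Vale.Agent.P284.H395
  Vale.Agent.P284.H885.DK Vale.Agent.P284.H478.G
open Vale.Agent.P281.H64.Thin (IsThinSet)

/-- the sheet maps of the conjugates `κ g_j κ⁻¹`, `κ ∈ K'`, have the same limit `ζ` -/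
def Cl {q k s : ℕ} {H Γ : Type} [Group Γ] [NormedAddCommGroup H] [InnerProductSpace ℂ H]
    (U : Γ → (H →ₗᵢ[ℂ] H)) (c : Γ → Cm q) (N : Cm k →L[ℂ] Cm q) (γ : Cm s → H) (τ : Cm s → Cm q)
    (𝒰 : Ultrafilter ℕ) (ε : ℕ → ℝ) (K' : Subgroup Γ) (g : ℕ → Γ) (b₀ : Cm s) (ρ₀ : ℝ)
    (ζ : Cm s → Cm s) : Prop :=
  ∀ κ ∈ K', ∃ ρ > 0, ρ ≤ ρ₀ ∧ ∃ (C : ℝ) (φ : ℕ → Cm s → Cm s),
    (∀ᶠ j in (𝒰 : Filter ℕ), NI U c N γ τ b₀ ρ (κ * g j * κ⁻¹) (φ j)) ∧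
    (∀ᶠ j in (𝒰 : Filter ℕ), ∀ x ∈ ball b₀ ρ, ‖φ j x - x‖ ≤ C * ε j) ∧
    ∀ x ∈ ball b₀ ρ, Tendsto (fun j => (((ε j)⁻¹ : ℝ) : ℂ) • (φ j x - x)) 𝒰 (𝓝 (ζ x))

section rel
variable {n R : ℕ} {X : Type} [TopologicalSpace X] [ChartedSpace (Cm n) X] {E Γ : Type}
  [Group Γ] [MulAction Γ E] {H : Type} [NormedAddCommGroup H] [InnerProductSpace ℂ H]
  {p : E → X} {v : E → Chart n X → (Fin R → Cm n) → H} {U : Γ → (H →ₗᵢ[ℂ] H)}

/-- translates of the relation -/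
lemma rel_smul (hU : ∀ g y (e : Chart n X), At e (p y) → ∀ ξ, v (g • y) e ξ = U g (v y e ξ))
    (hpsm : ∀ (g : Γ) (y : E), p (g • y) = p y) (g κ : Γ) {y y' : E} (hz : H395.NZ p v y) :
    Rel p v (U g) (κ • y) (κ • y') ↔ Rel p v (U (κ⁻¹ * g * κ)) y y' := by
  have hs : ∀ (g : Γ) {y : E} {x : H}, OnL p v y x → OnL p v (g • y) (U g x) := by
    intro g y x hx
    refine ⟨fun h0 => hx.1 ((U g).injective (by rw [map_zero]; exact h0)), fun e he ξ => ?_⟩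
    have he' : At e (p y) := by rwa [hpsm] at he
    obtain ⟨a, ha⟩ := hx.2 e he' ξ
    exact ⟨a, by rw [hU _ _ e he', ha, map_smul]⟩
  have hzn : ∀ g : Γ, ∀ {y : E}, H395.NZ p v y → H395.NZ p v (g • y) := by
    rintro g y ⟨e, he, ξ, hξ⟩
    refine ⟨e, by rw [hpsm]; exact he, ξ, ?_⟩
    rw [hU _ _ e he]
    exact fun h0 => hξ ((U g).injective (by rw [map_zero]; exact h0))
  constructor
  · intro h x hx
    have h1 := hs κ⁻¹ (h _ (hs κ hx))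
    rw [inv_smul_smul] at h1
    rwa [U_mul hU hpsm (κ⁻¹ * g) κ hz hx, U_mul hU hpsm κ⁻¹ g (hzn κ hz) (hs κ hx)]
  · intro h x hx
    have h1 : OnL p v y (U κ⁻¹ x) := by
      have := hs κ⁻¹ hx
      rwa [inv_smul_smul] at this
    have h2 := hs κ (h _ h1)
    rw [U_mul hU hpsm (κ⁻¹ * g) κ hz h1, U_mul hU hpsm κ⁻¹ g (hzn κ hz) (hs κ h1),
      ← U_mul hU hpsm κ κ⁻¹ (hzn κ hz) hx, mul_inv_cancel, U_one hU (hzn κ hz) hx,
      ← U_mul hU hpsm κ κ⁻¹ (hzn g (hzn κ hz)) (hs g hx), mul_inv_cancel,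
      U_one hU (hzn g (hzn κ hz)) (hs g hx)] at h2
    exact h2

end rel

section
variable {n q r k s m d : ℕ} {X E Γ W H : Type} [TopologicalSpace X] [ChartedSpace (Cm n) X]
  [TopologicalSpace E] [Group Γ] [MulAction Γ E]
  [NormedAddCommGroup W] [InnerProductSpace ℂ W] [CompleteSpace W] [NormedAddCommGroup H]
  [InnerProductSpace ℂ H] [CompleteSpace H] {p : E → X} {F : E → Cm q} {t : Cm q}
  {w : Chart n X → Cm n → Matrix (Fin n) (Fin n) ℂ} {B : ℝ}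
  {v : E → Chart n X → (Fin (q + r) → Cm n) → H}
  {U : Γ → (H →ₗᵢ[ℂ] H)} {π : Γ →* (W ≃ₗᵢ[ℂ] W)} {Θ : E → Chart n X → (Cm n →L[ℂ] W)}
  {N : Cm k →L[ℂ] Cm q} {u : E → W} {K K' : Subgroup Γ} {c : Γ → Cm q} {𝒢 : Set E}

/-- **the limit displacements vanish on the generic fibres** -/
theorem zeta_zero [T2Space X] [IsManifold 𝓘(ℂ, Cm n) ω X] (hp : IsGalois Γ p)
    (hF : HolB p w F B) (hK : ∀ k ∈ K, ∀ y, F (k • y) = F y) (hfg : Group.FG K)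
    (hnvi : ¬ VirtIndicable K) (hK'K : K' ≤ K) (hfi : (K'.subgroupOf K).FiniteIndex)
    (hconn : IsConnected (F ⁻¹' {t}))
    (hreg : ∀ y, F y = t → Reg (n := n) p F y) (hd : n = q + d)
    (hC : ∃ C : Set E, IsCompact C ∧ ∀ y, F y = t → ∃ k ∈ K', k • y ∈ C)
    (hpot : VPot p F t W Θ u) (hequi : VEqui p F t K π Θ u)
    (hth : ∀ (y : E) (e : Chart n X), F y = t → At e (p y) → ∃ h : Cm n → ℂ,
      AnalyticAt ℂ h (e (p y)) ∧ (∃ᶠ y' in 𝓝 y, F y' = t ∧ h (e (p y')) ≠ 0) ∧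
      ∀ᶠ y' in 𝓝 y, h (e (p y')) ≠ 0 → y' ∈ 𝒢)
    (hL : LeafE s p F m v U π Θ N 𝒢) {g : ℕ → Γ} (hcadd : ∀ g h, c (g * h) = c g + c h)
    (hcK : ∀ k ∈ K, c k = 0) (hcg : ∀ j, c (g j) = 0)
    {𝒰 : Ultrafilter ℕ} {ε : ℕ → ℝ} (hε0 : ∀ᶠ j in (𝒰 : Filter ℕ), 0 < ε j)
    (hεt : Tendsto ε 𝒰 (𝓝 0))
    (hrig : ∀ z ∈ 𝒢, ∀ (e : Chart n X) (b : Cm n → Cm (q + r)) (F0 : Cm (q + r) → W)
        (β : Cm (q + r) → Cm s) (γ : Cm s → H) (τ : Cm s → Cm q),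
        LC p F m v U π Θ N z e b F0 β γ τ →
        ∃ ρ₀ > 0, ∃ ζ : Cm s → Cm s, Cl U c N γ τ 𝒰 ε K' g (β (b (e (p z)))) ρ₀ ζ) :
    ∀ z ∈ 𝒢, F z = t → ∀ (e : Chart n X) (b : Cm n → Cm (q + r)) (F0 : Cm (q + r) → W)
        (β : Cm (q + r) → Cm s) (γ : Cm s → H) (τ : Cm s → Cm q),
        LC p F m v U π Θ N z e b F0 β γ τ → ∀ ρ₀ > 0, ∀ ζ : Cm s → Cm s,
        Cl U c N γ τ 𝒰 ε K' g (β (b (e (p z)))) ρ₀ ζ → ζ (β (b (e (p z)))) = 0 := by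
  have h : HCh d n p F t := hch_of hd hp.cov hF hreg
  letI := fibCS h
  letI := fibAct (t := t) hK
  haveI : IsManifold 𝓘(ℂ, Cm d) ω (F ⁻¹' {t}) := fib_manifold h
  haveI : T2Space E := H35.S4.t2_of_cov hp.cov
  haveI : ConnectedSpace (F ⁻¹' {t}) := isConnected_iff_connectedSpace.1 hconn
  have hpsm : ∀ (g : Γ) (y : E), p (g • y) = p y := fun g y => p_smul' hp g y
  have hc1 : c 1 = 0 := by
    have := hcadd 1 1
    rw [mul_one] at this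
    exact left_eq_add.1 this
  have hcconj : ∀ κ ∈ K', ∀ j, c (κ * g j * κ⁻¹) = 0 := by
    intro κ hκ j
    have h1 : c κ⁻¹ = 0 := hcK _ (K.inv_mem (hK'K hκ))
    rw [hcadd, hcadd, hcK _ (hK'K hκ), hcg, h1]
    simp
  -- the primitives
  have hP0 := prim_Fp h hpot
  have hP : H573.DK.Prim d (Fp h hpot) :=
    ⟨fun x => H573.DK.hol_of_anM (hP0.hol x).self_of_nhds, hP0.self, hP0.add⟩
  set G : Set (F ⁻¹' {t}) := {x | (x : E) ∈ 𝒢} with hGdef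
  have hT : IsThinSet (Cm d) Gᶜ := by
    refine ⟨(hL.good.isOpen.preimage continuous_subtype_val).isClosed_compl, fun y => ?_⟩
    obtain ⟨h', h1, h2, h3⟩ := thin_fib h hth y
    have h1' : H573.DK.Hol d h' y := H573.DK.hol_of_anM h1
    refine ⟨h', h1', not_eventually.2 h2, ?_⟩
    filter_upwards [h3] with z hz hzG
    by_contra hcon
    exact hzG (hz hcon)
  -- the limit displacements
  set R : ℕ → F ⁻¹' {t} → F ⁻¹' {t} → Prop := fun j y y' => Rel p v (U (g j)) (y : E) (y' : E)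
    with hR
  set u₀ : F ⁻¹' {t} → W := fun x => by
    classical
    exact if hx : ∃ w, Lm (Fp h hpot) R 𝒰 ε x w then hx.choose else 0 with hu₀
  have hu₀' : ∀ x w, Lm (Fp h hpot) R 𝒰 ε x w → u₀ x = w := by
    intro x w hxw
    have hex : ∃ w, Lm (Fp h hpot) R 𝒰 ε x w := ⟨w, hxw⟩
    have h1 : u₀ x = hex.choose := by
      simp only [hu₀]
      rw [dif_pos hex]
    rw [h1]
    exact hex.choose_spec.unique hxw
  -- the local data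
  have hloc : ∀ (x : F ⁻¹' {t}), (x : E) ∈ 𝒢 → ∀ (e : Chart n X) (b : Cm n → Cm (q + r))
      (F0 : Cm (q + r) → W) (β : Cm (q + r) → Cm s) (γ : Cm s → H) (τ : Cm s → Cm q),
      LC p F m v U π Θ N (x : E) e b F0 β γ τ → ∀ ρ₀ > 0, ∀ ζ : Cm s → Cm s,
      Cl U c N γ τ 𝒰 ε K' g (β (b (e (p (x : E))))) ρ₀ ζ →
      ∃ (f : F ⁻¹' {t} → Cm r) (û : Cm r → W),
        (∀ κ ∈ K', Lm (Fp h hpot) (fun j (y y' : F ⁻¹' {t}) =>
          Rel p v (U (κ * g j * κ⁻¹)) (y : E) (y' : E)) 𝒰 ε x (û (f x))) ∧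
        (∀ᶠ y in 𝓝 x, Lm (Fp h hpot) R 𝒰 ε y (û (f y))) ∧
        H573.DK.BddAt (H573.DK.disp (Fp h hpot) (fun j => (π (g j)).toLinearIsometry) x 0) ε
          (𝒰 : Filter ℕ) x ∧
        (∀ᶠ y in 𝓝 x, Tendsto (fun j => (((ε j)⁻¹ : ℝ) : ℂ) • H573.DK.disp (Fp h hpot)
          (fun j => (π (g j)).toLinearIsometry) x 0 y j) 𝒰 (𝓝 (û (f y) - û (f x)))) ∧
        (∃ ξ ∈ VS p F (x : E) e, Θ (x : E) e ξ = û (f x)) ∧
        (û (f x) = 0 → ζ (β (b (e (p (x : E))))) = 0) := by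
    intro x hx e b F0 β γ τ hLC ρ₀ hρ₀ ζ hcl
    obtain ⟨f, G', û, hsl⟩ := exists_sl hp.cov hF h hpot hL.form hL.dim hL.Ninj (c := c) x hLC
      (ρ₀ := ρ₀) (ζ := ζ)
    refine ⟨f, û, fun κ hκ => ?_, ?_⟩
    · obtain ⟨ρ, hρ, hρρ, C, φ, a1, a2, a3⟩ := hcl κ hκ
      obtain ⟨⟨ψ, hψ⟩, -⟩ := hsl 𝒰 ε hε0 hεt (fun j => κ * g j * κ⁻¹) (hcconj κ hκ) ρ hρ hρρ C φ
        a1 a2 a3
      exact (hψ.lm hP).self_of_nhds
    · obtain ⟨ρ, hρ, hρρ, C, φ, a1, a2, a3⟩ := hcl 1 K'.one_mem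
      simp only [one_mul, inv_one, mul_one] at a1
      obtain ⟨⟨ψ, hψ⟩, h2, h3⟩ := hsl 𝒰 ε hε0 hεt g hcg ρ hρ hρρ C φ a1 a2 a3
      exact ⟨hψ.lm hP, hψ.bdd, hψ.lim, h2, h3⟩
  have hGo : ∀ x ∈ G, ∀ᶠ y in 𝓝 x, y ∈ G := fun x hx =>
    (hL.good.isOpen.preimage continuous_subtype_val).mem_nhds hx
  have hGK : ∀ k : K, ∀ x ∈ G, k • x ∈ G := fun k x hx => hL.inv k x hx
  have hKc : ∀ k : K, Continuous fun x : F ⁻¹' {t} => k • x := fun k =>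
    (act_smooth h hp hK k).continuous
  -- equivariance
  have hinv : ∀ k : K, (k : Γ) ∈ K' → ∀ x ∈ G, u₀ (k • x) = π k (u₀ x) := by
    intro k hk x hx
    obtain ⟨e, b, F0, β, γ, τ, hLC⟩ := hL.chart x hx
    obtain ⟨ρ₀, hρ₀, ζ, hcl⟩ := hrig x hx e b F0 β γ τ hLC
    obtain ⟨f, û, h1, h2, -⟩ := hloc x hx e b F0 β γ τ hLC ρ₀ hρ₀ ζ hcl
    have h3 := h1 _ (K'.inv_mem hk)
    rw [hu₀' x _ h2.self_of_nhds]
    refine hu₀' _ _ (Lm.smul (π := π k) (k := k) hKc (fun j y => ?_)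
      (Fp_smul h hpot hp hK hequi.form k x) h3)
    have hz : H395.NZ p v (x : E) := (lc_onL hp.cov hL.form hLC).self_of_nhds.2.2.1
    have h4 := rel_smul hL.equi hpsm (g j) (k : Γ) (y := (x : E)) (y' := (y : E)) hz
    rw [inv_inv]
    exact h4
  -- `u₀` is constant
  obtain ⟨C, hCc, hCK⟩ := hC
  have hclosed : IsClosed (F ⁻¹' {t}) :=
    isClosed_singleton.preimage ((H885.Ker.holE_of hF).continuous hp.cov)
  obtain ⟨w₀, hw₀⟩ := const_field (K := K) (K' := {k : K | (k : Γ) ∈ K'}) (u₀ := u₀)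
    (V := fun j => (π (g j)).toLinearIsometry) (C := Subtype.val ⁻¹' C) hP hT hε0
    (fun x hx => by
      obtain ⟨e, b, F0, β, γ, τ, hLC⟩ := hL.chart x hx
      obtain ⟨ρ₀, hρ₀, ζ, hcl⟩ := hrig x hx e b F0 β γ τ hLC
      obtain ⟨f, û, -, -, h3, -⟩ := hloc x hx e b F0 β γ τ hLC ρ₀ hρ₀ ζ hcl
      exact h3)
    (fun x hx => by
      obtain ⟨e, b, F0, β, γ, τ, hLC⟩ := hL.chart x hx
      obtain ⟨ρ₀, hρ₀, ζ, hcl⟩ := hrig x hx e b F0 β γ τ hLC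
      obtain ⟨f, û, -, h2, -, h4, -⟩ := hloc x hx e b F0 β γ τ hLC ρ₀ hρ₀ ζ hcl
      filter_upwards [h2, h4] with y a1 a2
      rw [hu₀' y _ a1, hu₀' x _ h2.self_of_nhds]
      exact a2) hKc hGK
    (fun k hk x hx => by rw [hinv k hk x hx, LinearIsometryEquiv.norm_map])
    (hclosed.isClosedEmbedding_subtypeVal.isCompact_preimage hCc)
    (fun x => by
      obtain ⟨k, hk, hkx⟩ := hCK x x.2
      exact ⟨⟨k, hK'K hk⟩, hk, hkx⟩)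
  -- the constant is fixed by `K'`
  have hfix : ∀ k ∈ K', π k w₀ = w₀ := by
    intro k hk
    obtain ⟨x⟩ : Nonempty (F ⁻¹' {t}) := inferInstance
    obtain ⟨x₁, hx₁⟩ := (freq hT x).exists
    have h1 := hinv ⟨k, hK'K hk⟩ hk x₁ hx₁
    rw [hw₀ _ (hGK _ x₁ hx₁), hw₀ x₁ hx₁] at h1
    exact h1.symm
  intro z hz hzt e b F0 β γ τ hLC ρ₀ hρ₀ ζ hcl
  obtain ⟨f, û, -, h2, -, -, ⟨ξ, hξ, hξv⟩, h6⟩ := hloc ⟨z, hzt⟩ hz e b F0 β γ τ hLC ρ₀ hρ₀ ζ hcl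
  have h3 : û (f ⟨z, hzt⟩) = w₀ := by
    rw [← hu₀' _ _ h2.self_of_nhds]
    exact hw₀ _ hz
  refine h6 ?_
  rw [h3]
  rw [h3] at hξv
  exact nul_fix hp (H885.Ker.holE_of hF) hK hfg hnvi hK'K hfi hCc hCK hconn hreg hpot hequi hfix hzt
    hLC.mem hξ hξv

end

end Vale.Agent.P284.H573.GG
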